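import Vale.Agent.P022.Iface

/-! P10 + P11: the Galois side. Definitions and statements. -/

namespace Vale.Agent.P022

open NumberField

noncomputable section

/-- The algebraic numbers, the algebraic integers and the absolute Galois group of `ℚ`. -/
abbrev Qb : Type := AlgebraicClosure ℚ

abbrev Zb : Type := 𝓞 Qb

abbrev GQ : Type := Qb ≃ₐ[ℚ] Qb

/-- `σ` induces the `q`-th power map on `Zb / P` (for `q = 1`: `σ` is in the inertia group). -/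
def PowAt (q : ℕ) (P : Ideal Zb) (σ : GQ) : Prop :=
  ∀ x y : Zb, (y : Qb) = σ x → y - x ^ q ∈ P

/-- `σ` is an arithmetic Frobenius at the rational prime `l`. -/
def IsFrobQ (l : ℕ) (σ : GQ) : Prop :=
  ∃ P : Ideal Zb, P.IsPrime ∧ (l : Zb) ∈ P ∧ PowAt l P σ

/-- `ρ` is trivial on all inertia groups at `p`. -/
def UnramQ {A : Type*} [Group A] (ρ : GQ →* A) (p : ℕ) : Prop :=
  ∀ P : Ideal Zb, P.IsPrime → (p : Zb) ∈ P → ∀ σ : GQ, PowAt 1 P σ → ρ σ = 1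

/-- `c` is a complex conjugation. -/
def IsConjQ (c : GQ) : Prop :=
  ∃ φ : Qb →+* ℂ, ∀ x, φ (c x) = (starRingEnd ℂ) (φ x)

/-- `v`-continuity of a representation over `ℂ`. -/
def VCont (v : AbsoluteValue ℂ ℝ) (ρ : GQ →* Matrix.GeneralLinearGroup (Fin 2) ℂ) : Prop :=
  ∀ m : ℕ, ∃ U : Subgroup GQ, IsOpen (U : Set GQ) ∧ ∀ g ∈ U, ∀ i j : Fin 2,
    v ((ρ g : Matrix (Fin 2) (Fin 2) ℂ) i j - (1 : Matrix (Fin 2) (Fin 2) ℂ) i j) ≤ (1 / 2) ^ m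

/-- The product of `u` over the prime factors of an ideal. -/
def prodU {K : Type} [Field K] [NumberField K] (u : Ideal (𝓞 K) → ℂ) (I : Ideal (𝓞 K)) : ℂ :=
  ((UniqueFactorizationMonoid.normalizedFactors I).map u).prod

/-- P11a (pure arithmetic): reciprocity modulo every `2^m` gives a 2-adic Hecke character with a
fixed odd modulus, and the sign type at infinity. -/
def P11a_statement : Prop :=
  ∀ (v : AbsoluteValue ℂ ℝ), TwoAdic v →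
  ∀ (K : Type) [Field K] [NumberField K], Module.finrank ℚ K = 2 →
  ∀ (u : Ideal (𝓞 K) → ℂ), (∀ 𝔭, v (u 𝔭) = 1) →
  ∀ R : Finset ℕ, (∀ p ∈ R, p.Prime ∧ p ≠ 2) →
  (∀ m : ℕ, ∃ M : ℕ, 0 < M ∧ (∀ p : ℕ, p.Prime → p ≠ 2 → p ∣ M → p ∈ R) ∧
    ∀ α : 𝓞 K, α ≠ 0 → α - 1 ∈ idl K M → (∀ σ : K →+* ℝ, 0 < σ α) →
      v (prodU u (Ideal.span {α}) - 1) ≤ (1 / 2) ^ m) →
  ((∃ _ : K →+* ℝ, True) → ∀ m : ℕ, ∃ M : ℕ, 0 < M ∧
    ∀ n : ℕ, 0 < n → M ∣ n + 1 → v (prodU u (idl K n) + 1) ≤ (1 / 2) ^ m) →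
  ∃ (N0 : ℕ) (w : K → ℂ) (Ψ : Ideal (𝓞 K) →*₀ ℂ), Odd N0 ∧
    (∀ p : ℕ, p.Prime → (p ∣ N0 ↔ p ∈ R)) ∧ IsSign w ∧ IsHecke v Ψ N0 w ∧
    ∀ I, IsCoprime I (idl K (2 * N0)) → Ψ I = prodU u I

/-- Frobenius elements generate (input from the CFT package, base field `ℚ`): a finite abelian
extension of `ℚ` inside `Qb` in which almost all primes split completely is trivial. -/
def FG_statement : Prop :=
  ∀ (L : Type) [Field L] [NumberField L], IsGalois ℚ L →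
    (∀ σ τ : L ≃ₐ[ℚ] L, σ * τ = τ * σ) →
    (∃ S : Finset ℕ, ∀ p : ℕ, p.Prime → p ∉ S →
      ∀ P : Ideal (𝓞 L), P.IsPrime → (p : 𝓞 L) ∈ P → ∀ x : 𝓞 L, x ^ p - x ∈ P) →
    Module.finrank ℚ L = 1

/-- P10 + P11: the Galois side. `R` is the set of odd primes at which `ρ` is ramified. -/
def G_statement : Prop :=
  ∀ (v : AbsoluteValue ℂ ℝ), TwoAdic v →
  ∀ (ρ : GQ →* Matrix.GeneralLinearGroup (Fin 2) ℂ), VCont v ρ →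
    (∀ x : Fin 2 → ℂ, x ≠ 0 → ∃ g : GQ, ∀ c : ℂ,
      (ρ g : Matrix (Fin 2) (Fin 2) ℂ).mulVec x ≠ c • x) →
    (∃ c : GQ, IsConjQ c ∧ (ρ c : Matrix (Fin 2) (Fin 2) ℂ).det = -1) →
  ∀ R : Finset ℕ, (∀ p : ℕ, p.Prime → p ≠ 2 → (p ∈ R ↔ ¬ UnramQ ρ p)) → (∀ p ∈ R, p.Prime ∧ p ≠ 2) →
  ∀ H : Subgroup GQ, H.index = 2 → (∀ a ∈ H, ∀ b ∈ H, ρ a * ρ b = ρ b * ρ a) →
  ∃ (K : Type) (_ : Field K) (_ : NumberField K), Module.finrank ℚ K = 2 ∧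
    ∃ (w : K → ℂ) (N0 : ℕ) (Ψ : Ideal (𝓞 K) →*₀ ℂ), IsSign w ∧ Odd N0 ∧
      (∀ p : ℕ, p.Prime → (p ∣ N0 ↔ p ∈ R)) ∧
      (∀ p : ℕ, p.Prime → p ≠ 2 → (p : ℤ) ∣ discr K → p ∈ R) ∧
      IsHecke v Ψ N0 w ∧
      ∀ l : ℕ, l.Prime → l ≠ 2 → l ∉ R → ∀ σ : GQ, IsFrobQ l σ →
        (ρ σ : Matrix (Fin 2) (Fin 2) ℂ).trace = coef Ψ l ∧
        (ρ σ : Matrix (Fin 2) (Fin 2) ℂ).det = neben Ψ l

end

end Vale.Agent.P022
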