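import Vale.Agent.P022.H735.Assemble

/-! P10 + P11: the Galois side. -/

namespace Vale.Agent.P022

open NumberField Module
open scoped Pointwise

noncomputable section

lemma coprime_idl {K : Type} [Field K] [NumberField K] {I : Ideal (𝓞 K)} {l : ℕ} (hI : (l : 𝓞 K) ∈ I)
    {M : ℤ} (hl : IsCoprime (l : ℤ) M) : IsCoprime I (idl K M) := by
  obtain ⟨a, b, hab⟩ := hl
  rw [Ideal.isCoprime_iff_exists]
  refine ⟨(a : 𝓞 K) * (l : 𝓞 K), I.mul_mem_left _ hI, (b : 𝓞 K) * (M : 𝓞 K),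
    Ideal.mul_mem_left _ _ (Ideal.mem_span_singleton_self _), ?_⟩
  have := congrArg (fun z : ℤ => (z : 𝓞 K)) hab
  push_cast at this
  exact this

/-- The Galois side, from Artin reciprocity and the Kronecker-Weber step. -/
theorem G_of (AR : AR_statement) (KW : KW_statement) : G_statement := by
  intro v hv ρ hcont hirr hodd R hR hR' H hH hab
  obtain ⟨c, hcc, hdetc⟩ := hodd
  have hc : VContG v ρ := hcont
  have hirr' : Irr ρ := hirr
  obtain ⟨x, psi, hE⟩ := exists_psi ρ H hab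
  have hop : IsOpen (H : Set GQ) := hE.isOpen hv hc hH hirr'
  obtain ⟨K, _, _, _, hK, res, -, hres, hmem⟩ := exists_K H hH hop
  have h : GD v ρ H x psi K res := ⟨hv, hc, hirr', hH, hE, hK, hres, hmem⟩
  have hex : ∀ 𝔭 : Ideal (𝓞 K), ∃ τ : Qb ≃ₐ[K] Qb, 𝔭.IsPrime → 𝔭 ≠ ⊥ → FrobK K 𝔭 τ := by
    intro 𝔭
    by_cases h1 : 𝔭.IsPrime ∧ 𝔭 ≠ ⊥
    · obtain ⟨τ, hτ⟩ := exists_frobK 𝔭 h1.1 h1.2
      exact ⟨τ, fun _ _ => hτ⟩
    · exact ⟨1, fun h2 h3 => absurd ⟨h2, h3⟩ h1⟩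
  choose F hF using hex
  set u : Ideal (𝓞 K) → ℂ := fun 𝔭 => (h.psiK (F 𝔭) : ℂ) with hu
  have hunr : ∀ p : ℕ, p.Prime → p ≠ 2 → p ∉ R → UnramQ ρ p := by
    intro p hp hp2 hpR
    by_contra hcon
    exact hpR ((hR p hp hp2).mpr hcon)
  obtain ⟨N0, w, Ψ, hN0odd, hN0, hw, hHecke, hΨ⟩ := H120.P11a v hv K hK u
    (fun 𝔭 => h.v_psiK (F 𝔭)) R hR' (by
      intro m
      obtain ⟨M, hM, hram, hrec⟩ := h.hyp1 AR F hF m
      exact ⟨M, hM, fun p hp hp2 hpM => (hR p hp hp2).mpr (hram p hp hpM), hrec⟩) (by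
      rintro ⟨σ, -⟩ m
      exact h.hyp2 KW F hF R hunr (fun p hp => (hR' p hp).1) hcc hdetc σ m)
  refine ⟨K, inferInstance, inferInstance, hK, w, N0, Ψ, hw, hN0odd, hN0, ?_, hHecke, ?_⟩
  · intro p hp hp2 hd
    rw [hR p hp hp2]
    exact h.ramified_of_dvd_discr hp hp2 hd
  · intro l hl hl2 hlR σ hσ
    have hur := hunr l hl hl2 hlR
    have hcop : IsCoprime (l : ℤ) (2 * (N0 : ℤ)) := by
      rw [show (2 * (N0 : ℤ)) = ((2 * N0 : ℕ) : ℤ) by push_cast; ring,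
        Nat.isCoprime_iff_coprime, hl.coprime_iff_not_dvd]
      intro hd
      rcases hl.dvd_mul.mp hd with h1 | h1
      · exact hl2 ((Nat.prime_dvd_prime_iff_eq hl Nat.prime_two).mp h1)
      · exact hlR ((hN0 l hl).mp h1)
    have hval : ∀ 𝔭 : Ideal (𝓞 K), 𝔭.IsPrime → 𝔭 ≠ ⊥ → (l : 𝓞 K) ∈ 𝔭 → Ψ 𝔭 = u 𝔭 := by
      intro 𝔭 h1 h2 h3
      rw [hΨ 𝔭 (coprime_idl h3 hcop), prodU_prime u h1 h2]
    have hidl : idl K (l : ℤ) = Ideal.span {(l : 𝓞 K)} := by
      simp [idl]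
    have hne : ∀ Q : Ideal (𝓞 K), Ideal.absNorm Q = l → Q ≠ ⊥ := by
      rintro Q hQ rfl
      rw [Ideal.absNorm_bot] at hQ
      exact hl.ne_zero hQ.symm
    rcases h.frob_cases F hF hl hl2 hur hσ with ⟨hj, 𝔭, 𝔭', hne', hN, hN', hsp, htr, hdet⟩ |
      ⟨hj, hno, hpr, htr, hdet⟩
    · have e1 : Ψ 𝔭 = u 𝔭 := hval 𝔭 (H436.isPrime_of_absNorm_prime hl hN) (hne _ hN)
        (H436.natCast_mem_of_absNorm hN)
      have e2 : Ψ 𝔭' = u 𝔭' := hval 𝔭' (H436.isPrime_of_absNorm_prime hl hN') (hne _ hN')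
        (H436.natCast_mem_of_absNorm hN')
      constructor
      · have hS : H436.SN K l = {𝔭, 𝔭'} := by
          ext I
          rw [H436.mem_SN, Finset.mem_insert, Finset.mem_singleton]
          constructor
          · intro hI
            exact GD.mem_of_span hl (H436.isPrime_of_absNorm_prime hl hI)
              (H436.natCast_mem_of_absNorm hI) hsp hN hN'
          · rintro (rfl | rfl)
            · exact hN
            · exact hN'
        rw [H436.coef_eq, hS, Finset.sum_pair hne', e1, e2, htr]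
      · unfold neben
        rw [hidl, hsp, map_mul, e1, e2, hj, hdet]
        simp [hu]
    · constructor
      · have hS : H436.SN K l = ∅ := by
          ext I
          rw [H436.mem_SN]
          simpa using hno I
        rw [H436.coef_eq, hS, Finset.sum_empty, htr]
      · unfold neben
        have h0 : Ideal.span {(l : 𝓞 K)} ≠ ⊥ := by
          rw [Ne, Ideal.span_singleton_eq_bot]
          exact_mod_cast hl.ne_zero
        rw [hidl, hval _ hpr h0 (Ideal.mem_span_singleton_self _), hj, hdet]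
        simp [hu]

end

end Vale.Agent.P022
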