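import Vale.Agent.P022.H735.Quad

/-! P11: uniqueness of Frobenius, residue fields. -/

namespace Vale.Agent.P022

open NumberField
open scoped Pointwise

noncomputable section

variable {K : Type} [Field K] [NumberField K] [Algebra K Qb]

variable {A : Type} [CommGroup A]

/-- A commutative character takes the same value on all Frobenius elements at `𝔭`. -/
theorem frobK_unique (χ : (Qb ≃ₐ[K] Qb) →* A) (𝔭 : Ideal (𝓞 K))
    (hur : ∀ P : Ideal Zb, P.IsPrime → P.comap (algebraMap (𝓞 K) Zb) = 𝔭 →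
      ∀ τ : Qb ≃ₐ[K] Qb, PowAt 1 P (toGQ τ) → χ τ = 1)
    {τ1 τ2 : Qb ≃ₐ[K] Qb} (h1 : FrobK K 𝔭 τ1) (h2 : FrobK K 𝔭 τ2) : χ τ1 = χ τ2 := by
  obtain ⟨P1, hP1, hP1', hpow1⟩ := h1
  obtain ⟨P2, hP2, hP2', hpow2⟩ := h2
  rw [powAt_iff] at hpow1 hpow2
  obtain ⟨g, hg⟩ := exists_smul_eq K P1 P2 (hP1'.trans hP2'.symm)
  have h3 : ∀ x : Zb, (g * τ1 * g⁻¹) • x - x ^ Ideal.absNorm 𝔭 ∈ P2 := by
    intro x
    have h4 := hpow1 (g⁻¹ • x)
    rw [hg]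
    have h5 : (g * τ1 * g⁻¹) • x - x ^ Ideal.absNorm 𝔭 =
        g • (toGQ τ1 • g⁻¹ • x - (g⁻¹ • x) ^ Ideal.absNorm 𝔭) := by
      rw [smul_sub, smul_pow', smul_inv_smul, mul_smul, mul_smul]
      rfl
    rw [h5]
    exact Ideal.smul_mem_pointwise_smul _ _ _ h4
  have h6 : PowAt 1 P2 (toGQ (g * τ1 * g⁻¹ * τ2⁻¹)) := by
    rw [powAt_iff]
    intro x
    rw [pow_one]
    have h7 := h3 (τ2⁻¹ • x)
    have h8 := hpow2 (τ2⁻¹ • x)
    have h9 : toGQ τ2 • τ2⁻¹ • x = x := smul_inv_smul τ2 x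
    rw [h9] at h8
    have h10 := P2.sub_mem h7 h8
    rw [sub_sub_sub_cancel_right] at h10
    rw [← mul_smul] at h10
    exact h10
  have h7 := hur P2 hP2 hP2' _ h6
  rw [map_mul, map_mul, map_mul, map_inv, map_inv, mul_comm (χ g), mul_inv_cancel_right,
    mul_inv_eq_one] at h7
  exact h7

omit [Algebra K Qb] in
/-- if the residue field has `l` elements then every `x` is an integer modulo `𝔭`. -/
lemma exists_int_of_absNorm {𝔭 : Ideal (𝓞 K)} {l : ℕ} (hl : l.Prime)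
    (h : Ideal.absNorm 𝔭 = l) (x : 𝓞 K) : ∃ a : ℤ, x - a ∈ 𝔭 := by
  have hc : Nat.card (𝓞 K ⧸ 𝔭) = l := by rw [← h]; rfl
  have : Fact l.Prime := ⟨hl⟩
  have hne : 𝔭 ≠ ⊤ := by
    intro ht
    rw [ht, Ideal.absNorm_top] at h
    exact hl.one_lt.ne h
  have h1 : (1 : 𝓞 K ⧸ 𝔭) ≠ 0 := by
    have := Ideal.Quotient.nontrivial_iff.mpr hne
    exact one_ne_zero
  have h2 := zmultiples_eq_top_of_prime_card hc h1
  have h3 : Ideal.Quotient.mk 𝔭 x ∈ AddSubgroup.zmultiples (1 : 𝓞 K ⧸ 𝔭) := by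
    rw [h2]; trivial
  obtain ⟨r, hr⟩ := AddSubgroup.mem_zmultiples_iff.mp h3
  refine ⟨r, ?_⟩
  rw [← Ideal.Quotient.eq, ← hr]
  simp

omit [Algebra K Qb] in
lemma ne_bot_of_mem {𝔭 : Ideal (𝓞 K)} {l : ℕ} (hl : l.Prime) (h : (l : 𝓞 K) ∈ 𝔭) : 𝔭 ≠ ⊥ := by
  rintro rfl
  rw [Ideal.mem_bot, Nat.cast_eq_zero] at h
  exact hl.ne_zero h

omit [NumberField K] [Algebra K Qb] in
lemma char_unique {𝔭 : Ideal (𝓞 K)} (h𝔭 : 𝔭.IsPrime) {l p : ℕ} (hl : l.Prime) (hp : p.Prime)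
    (h1 : (l : 𝓞 K) ∈ 𝔭) (h2 : (p : 𝓞 K) ∈ 𝔭) : p = l := by
  by_contra hne
  have hc : IsCoprime (p : ℤ) (l : ℤ) := by
    rw [Nat.isCoprime_iff_coprime]
    exact (Nat.coprime_primes hp hl).mpr hne
  obtain ⟨a, b, hab⟩ := hc
  apply h𝔭.ne_top
  rw [Ideal.eq_top_iff_one]
  have h3 : (1 : 𝓞 K) = (a : 𝓞 K) * (p : 𝓞 K) + (b : 𝓞 K) * (l : 𝓞 K) := by
    have := congrArg (fun z : ℤ => (z : 𝓞 K)) hab
    push_cast at this
    exact this.symm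
  rw [h3]
  exact 𝔭.add_mem (𝔭.mul_mem_left _ h2) (𝔭.mul_mem_left _ h1)

omit [Algebra K Qb] in
/-- if Frobenius is trivial on the residue field then it has `l` elements. -/
lemma absNorm_eq_of_pow {𝔭 : Ideal (𝓞 K)} (h𝔭 : 𝔭.IsPrime) {l : ℕ} (hl : l.Prime)
    (h : (l : 𝓞 K) ∈ 𝔭) (hpow : ∀ x : 𝓞 K, x ^ l - x ∈ 𝔭) : Ideal.absNorm 𝔭 = l := by
  have hne := ne_bot_of_mem hl h
  obtain ⟨p, k, hp, hk, hp𝔭, hN, -⟩ := exists_char 𝔭 h𝔭 hne
  obtain rfl := char_unique h𝔭 hl hp h hp𝔭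
  have hmax : 𝔭.IsMaximal := h𝔭.isMaximal hne
  let _ : Field (𝓞 K ⧸ 𝔭) := Ideal.Quotient.field 𝔭
  have hfin : Finite (𝓞 K ⧸ 𝔭) := Ideal.finiteQuotientOfFreeOfNeBot 𝔭 hne
  let _ : Fintype (𝓞 K ⧸ 𝔭) := Fintype.ofFinite _
  have hcard : Fintype.card (𝓞 K ⧸ 𝔭) = p ^ k := by
    rw [← hN, Ideal.absNorm_apply, Submodule.cardQuot_apply, Nat.card_eq_fintype_card]
  have hle : p ^ k ≤ p := by
    rw [← hcard]
    have h5 := FiniteField.X_pow_card_sub_X_natDegree_eq (𝓞 K ⧸ 𝔭) hl.one_lt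
    have h6 : (Polynomial.X ^ p - Polynomial.X : Polynomial (𝓞 K ⧸ 𝔭)) ≠ 0 :=
      FiniteField.X_pow_card_sub_X_ne_zero _ hl.one_lt
    rw [← h5]
    apply Polynomial.card_le_degree_of_subset_roots (Z := Finset.univ)
    intro z _
    rw [Polynomial.mem_roots h6]
    obtain ⟨x, rfl⟩ := Ideal.Quotient.mk_surjective z
    simp only [Polynomial.IsRoot, Polynomial.eval_sub, Polynomial.eval_pow, Polynomial.eval_X]
    rw [← map_pow, ← map_sub, Ideal.Quotient.eq_zero_iff_mem]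
    exact hpow x
  have hk1 : k = 1 := by
    have h7 : p ^ k ≤ p ^ 1 := by simpa using hle
    have h8 := (Nat.pow_le_pow_iff_right hl.one_lt).mp h7
    omega
  rw [hN, hk1, pow_one]

section

variable {res : GQ →* (K ≃ₐ[ℚ] K)}

/-- An element of `GQ` fixing `K` comes from `Gal (Qb/K)`. -/
lemma exists_toGQ (hres : ∀ σ (x : K), algebraMap K Qb (res σ x) = σ (algebraMap K Qb x))
    {σ : GQ} (h : res σ = 1) : ∃ τ : Qb ≃ₐ[K] Qb, toGQ τ = σ := by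
  refine ⟨{ σ with commutes' := fun x => ?_ }, rfl⟩
  have := hres σ x
  rw [h] at this
  exact this.symm

lemma res_toGQ (hres : ∀ σ (x : K), algebraMap K Qb (res σ x) = σ (algebraMap K Qb x))
    (τ : Qb ≃ₐ[K] Qb) : res (toGQ τ) = 1 := by
  ext x
  apply (algebraMap K Qb).injective
  rw [hres]
  exact τ.commutes x

/-- elements congruent to the identity on `𝓞 K` modulo `P` fix `K` if inertia does. -/
lemma res_eq_one_of_congr
    (hres : ∀ σ (x : K), algebraMap K Qb (res σ x) = σ (algebraMap K Qb x))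
    (P : Ideal Zb) (hP : P.IsPrime) {p : ℕ} (hp : p.Prime) (hpP : (p : Zb) ∈ P)
    (hur : ∀ τ : GQ, PowAt 1 P τ → res τ = 1) {σ : GQ}
    (hσ : ∀ x : 𝓞 K, σ • algebraMap (𝓞 K) Zb x - algebraMap (𝓞 K) Zb x ∈ P) : res σ = 1 := by
  obtain ⟨τ, hτ⟩ := exists_pow_lift K P p 0 hp hpP σ (by simpa using hσ)
  rw [pow_zero] at hτ
  have h1 := hur _ hτ
  rw [map_mul, res_toGQ hres τ, mul_one] at h1
  exact h1

end

end

end Vale.Agent.P022
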