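import Vale.Agent.P022.H735.Level

/-! P11: Frobenius elements of `Gal (Qb/K)` and the reciprocity law. -/

namespace Vale.Agent.P022

open NumberField
open scoped Pointwise

noncomputable section

variable (K : Type) [Field K] [NumberField K] [Algebra K Qb]

variable {A : Type} [CommGroup A]

/-- Frobenius elements in `Gal (Qb/K)` at a prime of `K`. -/
def FrobK (𝔭 : Ideal (𝓞 K)) (τ : Qb ≃ₐ[K] Qb) : Prop :=
  ∃ P : Ideal Zb, P.IsPrime ∧ P.comap (algebraMap (𝓞 K) Zb) = 𝔭 ∧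
    PowAt (Ideal.absNorm 𝔭) P (toGQ τ)

variable {K}

omit [NumberField K] in
lemma exists_over (𝔭 : Ideal (𝓞 K)) [𝔭.IsPrime] :
    ∃ P : Ideal Zb, P.IsPrime ∧ P.comap (algebraMap (𝓞 K) Zb) = 𝔭 := by
  obtain ⟨Q, -, hQ, hQ2⟩ := Ideal.exists_ideal_over_prime_of_isIntegral_of_isPrime 𝔭
    (⊥ : Ideal Zb) (by
      rw [← RingHom.ker_eq_comap_bot, NumberField.RingOfIntegers.ker_algebraMap_eq_bot]
      exact bot_le)
  exact ⟨Q, hQ, hQ2⟩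

omit [Algebra K Qb] in
/-- residue characteristic and norm. -/
lemma exists_char (𝔭 : Ideal (𝓞 K)) (h𝔭 : 𝔭.IsPrime) (hne : 𝔭 ≠ ⊥) :
    ∃ p k : ℕ, p.Prime ∧ 0 < k ∧ (p : 𝓞 K) ∈ 𝔭 ∧ Ideal.absNorm 𝔭 = p ^ k ∧
      ∀ x : 𝓞 K, x ^ Ideal.absNorm 𝔭 - x ∈ 𝔭 := by
  have hmax : 𝔭.IsMaximal := h𝔭.isMaximal hne
  let : Field (𝓞 K ⧸ 𝔭) := Ideal.Quotient.field 𝔭
  have hfin : Finite (𝓞 K ⧸ 𝔭) := Ideal.finiteQuotientOfFreeOfNeBot 𝔭 hne
  let : Fintype (𝓞 K ⧸ 𝔭) := Fintype.ofFinite _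
  obtain ⟨p, hp⟩ := CharP.exists (𝓞 K ⧸ 𝔭)
  obtain ⟨k, hpp, hk⟩ := FiniteField.card (𝓞 K ⧸ 𝔭) p
  have hN : Ideal.absNorm 𝔭 = p ^ (k : ℕ) := by
    rw [← hk, Ideal.absNorm_apply, Submodule.cardQuot_apply, Nat.card_eq_fintype_card]
  refine ⟨p, k, hpp, k.pos, ?_, hN, ?_⟩
  · rw [← Ideal.Quotient.eq_zero_iff_mem, map_natCast]
    exact CharP.cast_eq_zero _ _
  · intro x
    rw [← Ideal.Quotient.eq, map_pow, hN, ← hk]
    exact FiniteField.pow_card _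

lemma exists_frobK (𝔭 : Ideal (𝓞 K)) (h𝔭 : 𝔭.IsPrime) (hne : 𝔭 ≠ ⊥) : ∃ τ, FrobK K 𝔭 τ := by
  obtain ⟨p, k, hp, hk, hp𝔭, hN, hpow⟩ := exists_char 𝔭 h𝔭 hne
  obtain ⟨P, hP, hP𝔭⟩ := exists_over 𝔭
  obtain ⟨τ, hτ⟩ := exists_pow_lift K P p k hp (by
      rw [← hP𝔭, Ideal.mem_comap, map_natCast] at hp𝔭
      exact hp𝔭) 1 (by
      intro x
      rw [one_smul, ← map_pow, ← map_sub, ← Ideal.mem_comap, hP𝔭, ← hN]
      have := 𝔭.neg_mem (hpow x)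
      simpa using this)
  refine ⟨τ, P, hP, hP𝔭, ?_⟩
  rw [hN]
  simpa using hτ

omit [NumberField K] in
lemma comap_comp (L : Type) [Field L] [NumberField L] [Algebra K L] [Algebra L Qb]
    [IsScalarTower K L Qb] (P : Ideal Zb) :
    (P.comap (algebraMap (𝓞 L) Zb)).comap (algebraMap (𝓞 K) (𝓞 L)) =
      P.comap (algebraMap (𝓞 K) Zb) := by
  rw [Ideal.comap_comap]
  congr 1
  ext x
  change algebraMap L Qb (algebraMap K L x) = algebraMap K Qb x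
  rw [← IsScalarTower.algebraMap_apply]

/-- Artin reciprocity for a character of `Gal (Qb/K)` with open kernel. -/
theorem recip (AR : AR_statement) (h2 : Module.finrank ℚ K ≤ 2) (χ : (Qb ≃ₐ[K] Qb) →* A)
    (hχ : IsOpen (χ.ker : Set (Qb ≃ₐ[K] Qb))) :
    ∃ M : ℕ, 0 < M ∧
      (∀ p : ℕ, p.Prime → p ∣ M → ∃ P : Ideal Zb, P.IsPrime ∧ (p : Zb) ∈ P ∧
        ∃ τ : Qb ≃ₐ[K] Qb, PowAt 1 P (toGQ τ) ∧ χ τ ≠ 1) ∧
      ∀ F : Ideal (𝓞 K) → (Qb ≃ₐ[K] Qb),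
        (∀ 𝔭 : Ideal (𝓞 K), 𝔭.IsPrime → 𝔭 ≠ ⊥ → FrobK K 𝔭 (F 𝔭)) →
        ∀ α : 𝓞 K, α ≠ 0 → α - 1 ∈ idl K M → (∀ σ : K →+* ℝ, 0 < σ α) →
          ((UniqueFactorizationMonoid.normalizedFactors (Ideal.span {α})).map
            (fun 𝔭 => χ (F 𝔭))).prod = 1 := by
  obtain ⟨L, _, _, _, _, _, hgal, hcomm, res, χL, hsurj, hres, hχL, hone⟩ := exists_level K χ hχ
  obtain ⟨M, hM, hram, hrec⟩ := AR K L hgal hcomm h2
  refine ⟨M, hM, ?_, ?_⟩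
  · intro p hp hpM
    obtain ⟨𝔭, h𝔭, hp𝔭, hnu⟩ := hram p hp hpM
    unfold Unram at hnu
    push Not at hnu
    obtain ⟨P', hP', hP'𝔭, σ, hσ, hσ1⟩ := hnu
    obtain ⟨P, hP, hPP'⟩ := exists_over P'
    obtain ⟨σ', rfl⟩ := hsurj σ
    have hpP : (p : Zb) ∈ P := by
      rw [← hP'𝔭, Ideal.mem_comap, map_natCast, ← hPP', Ideal.mem_comap, map_natCast] at hp𝔭
      exact hp𝔭
    obtain ⟨τ, hτ⟩ := exists_pow_lift L P p 0 hp hpP (toGQ σ') (by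
      intro x
      rw [pow_zero, pow_one]
      have hint : IsIntegral ℤ (res σ' (x : L)) :=
        (NumberField.RingOfIntegers.isIntegral_coe x).map (res σ').toAlgHom
      obtain ⟨y, hy⟩ : ∃ y : 𝓞 L, (y : L) = res σ' (x : L) := ⟨⟨_, hint⟩, rfl⟩
      have h3 := hσ x y hy
      rw [← hPP', Ideal.mem_comap, map_sub] at h3
      have h4 : algebraMap (𝓞 L) Zb y = toGQ σ' • algebraMap (𝓞 L) Zb x := by
        apply NumberField.RingOfIntegers.ext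
        change algebraMap L Qb y = σ' (algebraMap L Qb x)
        rw [hy, hres]
      rwa [h4] at h3)
    -- the element of `Gal (Qb/K)`
    let τK : Qb ≃ₐ[K] Qb := τ.restrictScalars K
    refine ⟨P, hP, hpP, σ' * τK, by rw [pow_zero] at hτ; exact hτ, ?_⟩
    intro h1
    apply hσ1
    have h5 := hone _ h1
    ext x
    have h6 := hres (σ' * τK) x
    rw [h5, AlgEquiv.mul_apply] at h6
    have h7 : τK (algebraMap L Qb x) = algebraMap L Qb x := τ.commutes x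
    rw [h7, ← hres σ' x] at h6
    exact (algebraMap L Qb).injective h6.symm
  · intro F hF α hα hα1 hpos
    have h1 := hrec (fun 𝔭 => res (F 𝔭)) (by
      intro 𝔭 h𝔭 hne _
      obtain ⟨P, hP, hP𝔭, hpow⟩ := hF 𝔭 h𝔭 hne
      refine ⟨P.comap (algebraMap (𝓞 L) Zb), inferInstance, ?_, ?_⟩
      · rw [comap_comp, hP𝔭]
      · intro x y hy
        rw [Ideal.mem_comap, map_sub, map_pow]
        apply hpow
        change algebraMap L Qb y = (F 𝔭) (algebraMap L Qb x)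
        rw [hy, hres]) A χL α hα hα1 hpos
    simpa only [hχL] using h1

end

end Vale.Agent.P022
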