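import Vale.Agent.P022.H735.Open

/-! P11: assembly of the Galois side. -/

namespace Vale.Agent.P022

open NumberField Module
open scoped Pointwise

noncomputable section

/-- Frobenius elements exist. -/
lemma exists_frobQ {l : ℕ} (hl : l.Prime) : ∃ σ : GQ, IsFrobQ l σ := by
  obtain ⟨P, hP, hlP⟩ : ∃ P : Ideal Zb, P.IsPrime ∧ (l : Zb) ∈ P := by
    have hne : Ideal.span {(l : Zb)} ≠ ⊤ := by
      intro ht
      rw [Ideal.span_singleton_eq_top] at ht
      have h1 : IsUnit ((l : ℤ)) := by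
        obtain ⟨y, hy⟩ := ht.exists_right_inv
        have h2 : IsIntegral ℤ ((l : ℚ)⁻¹) := by
          have h3 : (algebraMap ℚ Qb) ((l : ℚ)⁻¹) = (y : Qb) := by
            have h4 : ((l : Zb) : Qb) * (y : Qb) = 1 := by
              have := congrArg (fun z : Zb => (z : Qb)) hy
              simpa using this
            have h5 : ((l : Zb) : Qb) = (l : Qb) := by simp
            rw [h5] at h4
            rw [map_inv₀, map_natCast]
            exact (eq_inv_of_mul_eq_one_right h4).symm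
          have h6 : IsIntegral ℤ (y : Qb) := NumberField.RingOfIntegers.isIntegral_coe y
          rw [← h3] at h6
          exact (isIntegral_algebraMap_iff (algebraMap ℚ Qb).injective).mp h6
        obtain ⟨z, hz⟩ := IsIntegrallyClosed.isIntegral_iff.mp h2
        have hl0 : (l : ℚ) ≠ 0 := by exact_mod_cast hl.ne_zero
        refine IsUnit.of_mul_eq_one z ?_
        have h7 : ((l : ℤ) : ℚ) * (z : ℚ) = 1 := by
          rw [eq_intCast] at hz
          rw [hz]
          push_cast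
          field_simp
        exact_mod_cast h7
      rw [Int.isUnit_iff] at h1
      have := hl.one_lt
      omega
    obtain ⟨M, hM, hM2⟩ := Ideal.exists_le_maximal _ hne
    exact ⟨M, hM.isPrime, hM2 (Ideal.mem_span_singleton_self _)⟩
  obtain ⟨τ, hτ⟩ := exists_pow_lift ℚ P l 1 hl hlP 1 (by
    intro y
    rw [one_smul, pow_one]
    obtain ⟨z, hz⟩ : ∃ z : ℤ, y = (z : 𝓞 ℚ) := by
      refine ⟨Rat.ringOfIntegersEquiv y, ?_⟩
      apply Rat.ringOfIntegersEquiv.injective
      rw [map_intCast]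
      simp
    rw [hz, map_intCast]
    have h1 : (l : ℤ) ∣ z - z ^ l := by
      have : Fact l.Prime := ⟨hl⟩
      rw [← ZMod.intCast_zmod_eq_zero_iff_dvd]
      push_cast
      rw [ZMod.pow_card, sub_self]
    obtain ⟨w, hw⟩ := h1
    have h2 : ((z : Zb)) - (z : Zb) ^ l = (l : Zb) * (w : Zb) := by
      have := congrArg (fun t : ℤ => (t : Zb)) hw
      push_cast at this
      exact this
    rw [h2]
    exact P.mul_mem_right _ hlP)
  refine ⟨1 * toGQ τ, P, hP, hlP, ?_⟩
  rw [pow_one] at hτ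
  exact hτ

variable {v : AbsoluteValue ℂ ℝ} {ρ : GQ →* Matrix.GeneralLinearGroup (Fin 2) ℂ}
  {H : Subgroup GQ} {x : Fin 2 → ℂ} {psi : H →* ℂˣ}
  {K : Type} [Field K] [NumberField K] [Algebra K Qb] {res : GQ →* (K ≃ₐ[ℚ] K)}

omit [Algebra K Qb] in
lemma prodU_prime (u : Ideal (𝓞 K) → ℂ) {𝔭 : Ideal (𝓞 K)} (h𝔭 : 𝔭.IsPrime) (h0 : 𝔭 ≠ ⊥) :
    prodU u 𝔭 = u 𝔭 := by
  have h1 : Prime 𝔭 := Ideal.prime_of_isPrime h0 h𝔭
  rw [prodU, UniqueFactorizationMonoid.normalizedFactors_irreducible h1.irreducible]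
  simp

lemma GD.det_eq (h : GD v ρ H x psi K res) (F : Ideal (𝓞 K) → (Qb ≃ₐ[K] Qb))
    (hF : ∀ 𝔭 : Ideal (𝓞 K), 𝔭.IsPrime → 𝔭 ≠ ⊥ → FrobK K 𝔭 (F 𝔭))
    {l : ℕ} (hl : l.Prime) (hl2 : l ≠ 2) (hur : UnramQ ρ l) {σ : GQ} (hσ : IsFrobQ l σ) :
    (ρ σ : Matrix (Fin 2) (Fin 2) ℂ).det = (jacobiSym (discr K) l : ℂ) *
      prodU (fun 𝔭 => (h.psiK (F 𝔭) : ℂ)) (Ideal.span {(l : 𝓞 K)}) := by
  have hne : ∀ Q : Ideal (𝓞 K), Ideal.absNorm Q = l → Q ≠ ⊥ := by
    rintro Q hQ rfl
    rw [Ideal.absNorm_bot] at hQ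
    exact hl.ne_zero hQ.symm
  rcases h.frob_cases F hF hl hl2 hur hσ with ⟨hj, 𝔭, 𝔭', -, hN, hN', hsp, -, hdet⟩ |
    ⟨hj, -, hpr, -, hdet⟩
  · rw [hdet, hj, hsp, H120.prodU_mul _ (hne _ hN) (hne _ hN'),
      prodU_prime _ (H436.isPrime_of_absNorm_prime hl hN) (hne _ hN),
      prodU_prime _ (H436.isPrime_of_absNorm_prime hl hN') (hne _ hN')]
    simp
  · rw [hdet, hj, prodU_prime _ hpr]
    · simp
    · rw [Ne, Ideal.span_singleton_eq_bot]
      exact_mod_cast hl.ne_zero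

omit [Algebra K Qb] in
/-- positive discriminant of a real quadratic field -/
lemma discr_pos_of_real (hK : finrank ℚ K = 2) (σ : K →+* ℝ) : 0 < discr K := by
  obtain ⟨q⟩ := H436.exists_QD hK
  have h1 : ((discr K : ℤ) : ℝ) = (2 * σ (q.w : K) - q.t) ^ 2 := by
    have h2 := congrArg (fun z : 𝓞 K => σ (z : K)) q.hw
    simp only [map_mul, map_sub, map_intCast] at h2
    rw [q.discr_eq]
    push_cast
    linear_combination (-4) * h2
  have h3 : (0 : ℝ) ≤ ((discr K : ℤ) : ℝ) := by rw [h1]; positivity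
  have h4 : 0 ≤ discr K := by exact_mod_cast h3
  exact lt_of_le_of_ne h4 (NumberField.discr_ne_zero K).symm

/-- `J(D | n) = 1` for `D > 0` and `n ≡ -1` modulo `4 D`. -/
lemma jacobi_neg_one {D : ℤ} (hD : 0 < D) {n : ℕ} (hn : 4 * D.natAbs ∣ n + 1) :
    jacobiSym D n = 1 := by
  obtain ⟨d, rfl⟩ := Int.eq_ofNat_of_zero_le hD.le
  have hd : 0 < d := by exact_mod_cast hD
  simp only [Int.natAbs_natCast] at hn
  obtain ⟨k, hk⟩ := hn
  have hk0 : 0 < k := by
    rcases Nat.eq_zero_or_pos k with rfl | h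
    · simp at hk
    · exact h
  have hodd : Odd n := by
    rw [Nat.odd_iff]
    have : (n + 1) % 2 = 0 := by
      rw [hk]
      exact Nat.mod_eq_zero_of_dvd ⟨2 * d * k, by ring⟩
    omega
  rw [jacobiSym.mod_right _ hodd]
  simp only [Int.natAbs_natCast]
  have hmod : n % (4 * d) = 4 * d - 1 := by
    obtain ⟨k', rfl⟩ : ∃ k', k = k' + 1 := ⟨k - 1, by omega⟩
    have h1 : n = (4 * d - 1) + 4 * d * k' := by
      have : 4 * d * (k' + 1) = 4 * d * k' + 4 * d := by ring
      omega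
    rw [h1, Nat.add_mul_mod_self_left]
    exact Nat.mod_eq_of_lt (by omega)
  rw [hmod]
  have hodd' : Odd (4 * d - 1) := by
    rw [Nat.odd_iff]; omega
  have h4 : jacobiSym 4 (4 * d - 1) = 1 := by
    have : (4 : ℤ) = 2 * 2 := by norm_num
    rw [this, jacobiSym.mul_left]
    have hg : Int.gcd 2 ((4 * d - 1 : ℕ) : ℤ) = 1 := by
      have : Nat.Coprime 2 (4 * d - 1) := by
        rw [Nat.coprime_two_left]
        exact hodd'
      exact this
    rcases jacobiSym.eq_one_or_neg_one hg with h | h <;> rw [h] <;> norm_num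
  have h5 : jacobiSym (4 * (d : ℤ)) (4 * d - 1) = 1 := by
    have h6 : (4 * (d : ℤ)) % ((4 * d - 1 : ℕ) : ℤ) = (1 : ℤ) % ((4 * d - 1 : ℕ) : ℤ) := by
      apply Int.ModEq.symm
      rw [Int.modEq_iff_dvd]
      refine ⟨1, ?_⟩
      have : 1 ≤ 4 * d := by omega
      push_cast [Nat.cast_sub this]
      ring
    rw [jacobiSym.mod_left' h6, jacobiSym.one_left]
  rw [jacobiSym.mul_left, h4, one_mul] at h5
  exact h5

omit [Algebra K Qb] in
lemma prod_list (u : Ideal (𝓞 K) → ℂ) (L : List ℕ) (hL : ∀ l ∈ L, l ≠ 0) :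
    prodU u (Ideal.span {((L.prod : ℕ) : 𝓞 K)}) =
      (L.map (fun l : ℕ => prodU u (Ideal.span {(l : 𝓞 K)}))).prod := by
  induction L with
  | nil =>
    simp only [List.prod_nil, Nat.cast_one, List.map_nil]
    rw [Ideal.span_singleton_one, ← Ideal.one_eq_top]
    exact H120.prodU_one u
  | cons a L ih =>
    have ha : a ≠ 0 := hL a (by simp)
    have hL' : ∀ l ∈ L, l ≠ 0 := fun l hl => hL l (by simp [hl])
    have hp : L.prod ≠ 0 := by
      intro h0
      rw [List.prod_eq_zero_iff] at h0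
      exact hL' 0 h0 rfl
    rw [List.prod_cons, List.map_cons, List.prod_cons, ← ih hL', Nat.cast_mul,
      ← Ideal.span_singleton_mul_span_singleton, H120.prodU_mul]
    · rw [Ne, Ideal.zero_eq_bot, Ideal.span_singleton_eq_bot]
      exact_mod_cast ha
    · rw [Ne, Ideal.zero_eq_bot, Ideal.span_singleton_eq_bot]
      exact_mod_cast hp

lemma jacobi_list (D : ℤ) (L : List ℕ) (hL : ∀ l ∈ L, l ≠ 0) :
    jacobiSym D L.prod = (L.map (fun l : ℕ => jacobiSym D l)).prod := by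
  induction L with
  | nil => simp
  | cons a L ih =>
    have ha : a ≠ 0 := hL a (by simp)
    have hL' : ∀ l ∈ L, l ≠ 0 := fun l hl => hL l (by simp [hl])
    have hp : L.prod ≠ 0 := by
      intro h0
      rw [List.prod_eq_zero_iff] at h0
      exact hL' 0 h0 rfl
    have : NeZero a := ⟨ha⟩
    have : NeZero L.prod := ⟨hp⟩
    rw [List.prod_cons, List.map_cons, List.prod_cons, ← ih hL', jacobiSym.mul_right]

/-- hypothesis 2 of P11a (real case) -/
theorem GD.hyp2 (h : GD v ρ H x psi K res) (KW : KW_statement)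
    (F : Ideal (𝓞 K) → (Qb ≃ₐ[K] Qb))
    (hF : ∀ 𝔭 : Ideal (𝓞 K), 𝔭.IsPrime → 𝔭 ≠ ⊥ → FrobK K 𝔭 (F 𝔭))
    (R : Finset ℕ) (hR : ∀ p : ℕ, p.Prime → p ≠ 2 → p ∉ R → UnramQ ρ p)
    (hR' : ∀ p ∈ R, p.Prime) {c : GQ} (hc : IsConjQ c)
    (hdet : (ρ c : Matrix (Fin 2) (Fin 2) ℂ).det = -1) (σ : K →+* ℝ) (m : ℕ) :
    ∃ M : ℕ, 0 < M ∧ ∀ n : ℕ, 0 < n → M ∣ n + 1 →
      v (prodU (fun 𝔭 => (h.psiK (F 𝔭) : ℂ)) (idl K n) + 1) ≤ (1 / 2) ^ m := by
  have hD := discr_pos_of_real h.hK σ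
  have hex : ∀ l : ℕ, ∃ τ : GQ, l.Prime → IsFrobQ l τ := by
    intro l
    by_cases hl : l.Prime
    · obtain ⟨τ, hτ⟩ := exists_frobQ hl
      exact ⟨τ, fun _ => hτ⟩
    · exact ⟨1, fun h => absurd h hl⟩
  choose Fq hFq using hex
  obtain ⟨M1, hM1, hKW⟩ := KW (Am h.hv m) (detm h.hv ρ m) (detm_open h.hv h.hc m)
    ⟨insert 2 R, by
      intro l hl hlR P hP hlP τ hτ
      rw [Finset.mem_insert, not_or] at hlR
      have h1 := hR l hl hlR.1 hlR.2 P hP hlP τ hτ
      change mkm h.hv m (Matrix.GeneralLinearGroup.det (ρ τ)) = 1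
      rw [h1, map_one, map_one]⟩ c hc Fq hFq
  refine ⟨M1 * (4 * (discr K).natAbs) * 2 * ∏ p ∈ R, p, ?_, ?_⟩
  · have h1 : 0 < (discr K).natAbs := Int.natAbs_pos.mpr hD.ne'
    have h2 : 0 < ∏ p ∈ R, p := Finset.prod_pos fun p hp => (hR' p hp).pos
    positivity
  · intro n hn hMn
    have hd1 : M1 ∣ n + 1 := by
      refine dvd_trans ?_ hMn
      exact ⟨(4 * (discr K).natAbs) * 2 * ∏ p ∈ R, p, by ring⟩
    have hd2 : 4 * (discr K).natAbs ∣ n + 1 := by
      refine dvd_trans ?_ hMn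
      exact ⟨M1 * 2 * ∏ p ∈ R, p, by ring⟩
    have hgood : ∀ l ∈ n.primeFactorsList, l.Prime ∧ l ≠ 2 ∧ UnramQ ρ l := by
      intro l hl
      have hlp := Nat.prime_of_mem_primeFactorsList hl
      have hln := Nat.dvd_of_mem_primeFactorsList hl
      have hnot : ¬ l ∣ n + 1 := by
        intro hd
        have := (Nat.dvd_add_right hln).mp hd
        exact hlp.one_lt.ne' (Nat.dvd_one.mp this)
      have h2 : l ≠ 2 := by
        rintro rfl
        apply hnot
        refine dvd_trans ?_ hMn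
        exact ⟨M1 * (4 * (discr K).natAbs) * ∏ p ∈ R, p, by ring⟩
      refine ⟨hlp, h2, hR l hlp h2 ?_⟩
      intro hlR
      apply hnot
      refine dvd_trans ?_ hMn
      exact Dvd.dvd.mul_left (Finset.dvd_prod_of_mem _ hlR) _
    have hne : ∀ l ∈ n.primeFactorsList, l ≠ 0 := fun l hl => (hgood l hl).1.ne_zero
    have hprod : n.primeFactorsList.prod = n := Nat.prod_primeFactorsList hn.ne'
    set u : Ideal (𝓞 K) → ℂ := fun 𝔭 => (h.psiK (F 𝔭) : ℂ) with hu
    have hJ : jacobiSym (discr K) n = 1 := jacobi_neg_one hD hd2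
    have hU : prodU u (idl K n) =
        (n.primeFactorsList.map (fun l : ℕ => prodU u (Ideal.span {(l : 𝓞 K)}))).prod := by
      rw [← prod_list u _ hne, hprod]
      simp [idl]
    have hdets : (n.primeFactorsList.map
        (fun l : ℕ => (ρ (Fq l) : Matrix (Fin 2) (Fin 2) ℂ).det)).prod = prodU u (idl K n) := by
      have h1 : (n.primeFactorsList.map
          (fun l : ℕ => (ρ (Fq l) : Matrix (Fin 2) (Fin 2) ℂ).det)) =
          n.primeFactorsList.map (fun l : ℕ => (jacobiSym (discr K) l : ℂ) *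
            prodU u (Ideal.span {(l : 𝓞 K)})) := by
        apply List.map_congr_left
        intro l hl
        obtain ⟨hl1, hl2, hl3⟩ := hgood l hl
        exact h.det_eq F hF hl1 hl2 hl3 (hFq l hl1)
      rw [h1, List.prod_map_mul, ← hU]
      have h2 : (n.primeFactorsList.map (fun l : ℕ => ((jacobiSym (discr K) l : ℤ) : ℂ))).prod = 1 := by
        have h3 : (Int.castRingHom ℂ) (jacobiSym (discr K) n.primeFactorsList.prod) =
            (n.primeFactorsList.map
              ((Int.castRingHom ℂ) ∘ fun l : ℕ => jacobiSym (discr K) l)).prod := by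
          rw [jacobi_list (discr K) _ hne, map_list_prod, List.map_map]
        rw [hprod, hJ, map_one] at h3
        exact h3.symm
      rw [h2, one_mul]
    have hK := hKW n hn hd1
    -- in terms of units
    set W : ℂˣ := (n.primeFactorsList.map
      (fun l : ℕ => Matrix.GeneralLinearGroup.det (ρ (Fq l)))).prod with hW
    have hWv : (W : ℂ) = prodU u (idl K n) := by
      rw [← hdets, hW, ← Units.coeHom_apply, map_list_prod, List.map_map]
      congr 1
    have h5 : mkm h.hv m W = mkm h.hv m (-1) := by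
      have h6 : mkm h.hv m W = detm h.hv ρ m c := by
        rw [← hK, hW, map_list_prod, List.map_map]
        rfl
      rw [h6]
      change mkm h.hv m (Matrix.GeneralLinearGroup.det (ρ c)) = _
      congr 1
      ext
      rw [Matrix.GeneralLinearGroup.val_det_apply, hdet]
      simp
    have h6 : W * (-1) ∈ Bm h.hv m := by
      rw [← mkm_eq_one, map_mul, h5, ← map_mul]
      simp
    have h7 := h6.2
    have h8 : ((W * (-1) : ℂˣ) : ℂ) - 1 = -(prodU u (idl K n) + 1) := by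
      rw [Units.val_mul, hWv]
      simp
      ring
    rw [h8, v.map_neg] at h7
    exact h7

end

end Vale.Agent.P022
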