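import Vale.Agent.P022.H735.Psi
import Vale.Agent.P022.Iface

/-! P10: continuity of `psi`, openness of `H`. -/

namespace Vale.Agent.P022

open Matrix

noncomputable section

variable {G : Type*} [Group G] [TopologicalSpace G] [IsTopologicalGroup G]

/-- `v`-continuity. -/
def VContG (v : AbsoluteValue ℂ ℝ) (ρ : G →* Matrix.GeneralLinearGroup (Fin 2) ℂ) : Prop :=
  ∀ m : ℕ, ∃ U : Subgroup G, IsOpen (U : Set G) ∧ ∀ g ∈ U, ∀ i j : Fin 2,
    v ((ρ g : Matrix (Fin 2) (Fin 2) ℂ) i j - (1 : Matrix (Fin 2) (Fin 2) ℂ) i j) ≤ (1 / 2) ^ m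

variable {v : AbsoluteValue ℂ ℝ} {ρ : G →* Matrix.GeneralLinearGroup (Fin 2) ℂ}

lemma TwoAdic.add_le (hv : TwoAdic v) {x y : ℂ} {r : ℝ} (hx : v x ≤ r) (hy : v y ≤ r) :
    v (x + y) ≤ r := (hv.nonarch x y).trans (max_le hx hy)

lemma TwoAdic.sub_le (hv : TwoAdic v) {x y : ℂ} {r : ℝ} (hx : v x ≤ r) (hy : v y ≤ r) :
    v (x - y) ≤ r := by
  rw [sub_eq_add_neg]
  exact hv.add_le hx (by rwa [v.map_neg])

lemma exists_max (v : AbsoluteValue ℂ ℝ) {x : Fin 2 → ℂ} (hx : x ≠ 0) :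
    ∃ i : Fin 2, 0 < v (x i) ∧ ∀ j, v (x j) ≤ v (x i) := by
  have hne : x 0 ≠ 0 ∨ x 1 ≠ 0 := by
    by_contra h
    push Not at h
    apply hx
    ext i
    fin_cases i
    · exact h.1
    · exact h.2
  rcases le_total (v (x 0)) (v (x 1)) with h | h
  · refine ⟨1, ?_, ?_⟩
    · rcases hne with h0 | h1
      · exact lt_of_lt_of_le (v.pos h0) h
      · exact v.pos h1
    · intro j; fin_cases j <;> simp [h]
  · refine ⟨0, ?_, ?_⟩
    · rcases hne with h0 | h1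
      · exact v.pos h0
      · exact lt_of_lt_of_le (v.pos h1) h
    · intro j; fin_cases j <;> simp [h]

lemma TwoAdic.mulVec_le (hv : TwoAdic v) (A : Matrix (Fin 2) (Fin 2) ℂ) (x : Fin 2 → ℂ)
    {a b : ℝ} (ha : 0 ≤ a) (hA : ∀ i j, v (A i j) ≤ a) (hx : ∀ j, v (x j) ≤ b) (i : Fin 2) :
    v ((A *ᵥ x) i) ≤ a * b := by
  simp only [Matrix.mulVec, dotProduct, Fin.sum_univ_two]
  apply hv.add_le
  · rw [v.map_mul]
    exact mul_le_mul (hA _ _) (hx _) (v.nonneg _) ha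
  · rw [v.map_mul]
    exact mul_le_mul (hA _ _) (hx _) (v.nonneg _) ha

lemma TwoAdic.mul_le (hv : TwoAdic v) (A B : Matrix (Fin 2) (Fin 2) ℂ)
    {a b : ℝ} (ha : 0 ≤ a) (hA : ∀ i j, v (A i j) ≤ a) (hB : ∀ i j, v (B i j) ≤ b) (i j : Fin 2) :
    v ((A * B) i j) ≤ a * b := by
  simp only [Matrix.mul_apply, Fin.sum_univ_two]
  apply hv.add_le
  · rw [v.map_mul]
    exact mul_le_mul (hA _ _) (hB _ _) (v.nonneg _) ha
  · rw [v.map_mul]
    exact mul_le_mul (hA _ _) (hB _ _) (v.nonneg _) ha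

lemma TwoAdic.entry_le_one (hv : TwoAdic v) (A : Matrix (Fin 2) (Fin 2) ℂ)
    (hA : ∀ i j, v (A i j - (1 : Matrix (Fin 2) (Fin 2) ℂ) i j) ≤ 1) (i j : Fin 2) :
    v (A i j) ≤ 1 := by
  have h1 : v ((1 : Matrix (Fin 2) (Fin 2) ℂ) i j) ≤ 1 := by
    fin_cases i <;> fin_cases j <;> simp
  have h2 := hv.add_le (hA i j) h1
  simpa using h2

lemma exists_bound_matrix (v : AbsoluteValue ℂ ℝ) (A : Matrix (Fin 2) (Fin 2) ℂ) :
    ∃ C : ℝ, 0 ≤ C ∧ ∀ i j, v (A i j) ≤ C := by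
  refine ⟨∑ i, ∑ j, v (A i j), Finset.sum_nonneg fun i _ => Finset.sum_nonneg fun j _ =>
    v.nonneg _, fun i j => ?_⟩
  calc v (A i j) ≤ ∑ j, v (A i j) :=
        Finset.single_le_sum (f := fun j => v (A i j)) (fun j _ => v.nonneg _) (Finset.mem_univ j)
    _ ≤ _ := Finset.single_le_sum (f := fun i => ∑ j, v (A i j))
        (fun i _ => Finset.sum_nonneg fun j _ => v.nonneg _) (Finset.mem_univ i)

/-- a `v`-continuous representation of a compact group is bounded. -/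
lemma VContG.bounded [CompactSpace G] (hv : TwoAdic v) (hc : VContG v ρ) :
    ∃ C : ℝ, 0 ≤ C ∧ ∀ g : G, ∀ i j, v ((ρ g : Matrix (Fin 2) (Fin 2) ℂ) i j) ≤ C := by
  obtain ⟨U, hU, hb⟩ := hc 0
  have hfin : Finite (G ⧸ U) := Subgroup.quotient_finite_of_isOpen U hU
  have hex : ∀ q : G ⧸ U, ∃ C : ℝ, 0 ≤ C ∧ ∀ i j,
      v ((ρ q.out : Matrix (Fin 2) (Fin 2) ℂ) i j) ≤ C := fun q => exists_bound_matrix v _
  choose C hC0 hC using hex
  have := Fintype.ofFinite (G ⧸ U)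
  refine ⟨∑ q, C q, Finset.sum_nonneg fun q _ => hC0 q, fun g i j => ?_⟩
  have hle : C (g : G ⧸ U) ≤ ∑ q, C q :=
    Finset.single_le_sum (fun q _ => hC0 q) (Finset.mem_univ _)
  refine le_trans ?_ hle
  obtain ⟨u, hu⟩ := QuotientGroup.mk_out_eq_mul U g
  have h1 : ρ g = ρ ((g : G ⧸ U).out) * ρ ((u : G)⁻¹) := by
    rw [← map_mul, hu]
    congr 1
    group
  rw [h1, Units.val_mul]
  have h2 := hv.mul_le (ρ ((g : G ⧸ U).out) : Matrix (Fin 2) (Fin 2) ℂ)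
    (ρ ((u : G)⁻¹) : Matrix (Fin 2) (Fin 2) ℂ) (hC0 _) (hC _)
    (hv.entry_le_one _ (fun i j => by simpa using hb _ (inv_mem u.2) i j)) i j
  simpa using h2

variable {H : Subgroup G} {x : Fin 2 → ℂ} {psi : H →* ℂˣ}

lemma IsEig.le_one [CompactSpace G] (hv : TwoAdic v) (hc : VContG v ρ) (hE : IsEig ρ H x psi)
    (h : H) : v (psi h) ≤ 1 := by
  obtain ⟨C, hC0, hC⟩ := hc.bounded hv
  obtain ⟨i, hi, hmax⟩ := exists_max v hE.1
  have key : ∀ n : ℕ, v (psi h) ^ n ≤ C := by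
    intro n
    have h1 := congrFun (hE.2 (h ^ n)) i
    have h2 := hv.mulVec_le (ρ ((h ^ n : H) : G) : Matrix (Fin 2) (Fin 2) ℂ) x hC0 (hC _) hmax i
    rw [h1] at h2
    simp only [map_pow, Units.val_pow_eq_pow_val, Pi.smul_apply, smul_eq_mul, map_mul] at h2
    exact le_of_mul_le_mul_right h2 hi
  by_contra hlt
  push Not at hlt
  obtain ⟨n, hn⟩ := pow_unbounded_of_one_lt C hlt
  exact absurd (key n) (not_le.mpr hn)

/-- `psi` has `v`-unit values. -/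
lemma IsEig.eq_one [CompactSpace G] (hv : TwoAdic v) (hc : VContG v ρ) (hE : IsEig ρ H x psi)
    (h : H) : v (psi h) = 1 := by
  refine le_antisymm (hE.le_one hv hc h) ?_
  have h1 := hE.le_one hv hc h⁻¹
  rw [map_inv, Units.val_inv_eq_inv_val, map_inv₀] at h1
  have h2 : 0 < v (psi h) := v.pos (Units.ne_zero _)
  rwa [inv_le_one_iff₀, or_iff_right (not_le.mpr h2)] at h1

/-- `psi` is `v`-continuous. -/
lemma IsEig.cont (hv : TwoAdic v) (hc : VContG v ρ) (hE : IsEig ρ H x psi) (m : ℕ) :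
    ∃ U : Subgroup G, IsOpen (U : Set G) ∧ ∀ h : H, (h : G) ∈ U →
      v ((psi h : ℂ) - 1) ≤ (1 / 2) ^ m := by
  obtain ⟨U, hU, hb⟩ := hc m
  obtain ⟨i, hi, hmax⟩ := exists_max v hE.1
  refine ⟨U, hU, fun h hh => ?_⟩
  have h2 := hv.mulVec_le ((ρ h : Matrix (Fin 2) (Fin 2) ℂ) - 1) x (a := (1 / 2) ^ m)
    (by positivity) (fun i j => by simpa using hb _ hh i j) hmax i
  rw [Matrix.sub_mulVec, hE.2 h, Matrix.one_mulVec] at h2
  have h3 : ((psi h : ℂ) • x - x) i = ((psi h : ℂ) - 1) * x i := by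
    simp [sub_mul]
  rw [h3, map_mul] at h2
  exact le_of_mul_le_mul_right h2 hi

lemma TwoAdic.dd_le (hv : TwoAdic v) (x y : Fin 2 → ℂ) {a b : ℝ} (ha : 0 ≤ a)
    (hx : ∀ j, v (x j) ≤ a) (hy : ∀ j, v (y j) ≤ b) : v (dd x y) ≤ a * b := by
  unfold dd
  apply hv.sub_le
  · rw [v.map_mul]
    exact mul_le_mul (hx _) (hy _) (v.nonneg _) ha
  · rw [v.map_mul]
    exact mul_le_mul (hx _) (hy _) (v.nonneg _) ha

/-- `H` is open. -/
lemma IsEig.isOpen (hv : TwoAdic v) (hc : VContG v ρ) (hH : H.index = 2) (hirr : Irr ρ)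
    (hE : IsEig ρ H x psi) : IsOpen (H : Set G) := by
  by_contra hop
  obtain ⟨g, hg⟩ : ∃ g, g ∉ H := by
    by_contra h
    push Not at h
    have : H = ⊤ := by ext; simp [h]
    rw [this] at hH
    simp at hH
  -- every open subgroup contains an element outside `H`
  have hU : ∀ U : Subgroup G, IsOpen (U : Set G) → ∃ u ∈ U, u ∉ H := by
    intro U hU
    by_contra h
    push Not at h
    exact hop (Subgroup.isOpen_mono (H₁ := U) (H₂ := H) h hU)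
  apply hE.dd_ne hH hirr hg
  obtain ⟨C, hC0, hC⟩ := exists_bound_matrix v (ρ g : Matrix (Fin 2) (Fin 2) ℂ)
  obtain ⟨i, hi, hmax⟩ := exists_max v hE.1
  have key : ∀ m : ℕ, v (dd x ((ρ g : Matrix (Fin 2) (Fin 2) ℂ) *ᵥ x)) ≤
      (v (x i) * (C * v (x i))) * (1 / 2) ^ m := by
    intro m
    obtain ⟨U, hUo, hb⟩ := hc m
    obtain ⟨u, hu, huH⟩ := hU U hUo
    have hgu : g * u ∈ H := by
      rw [Subgroup.mul_mem_iff_of_index_two hH]
      exact ⟨fun h => absurd h hg, fun h => absurd h huH⟩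
    have h1 := hE.2 ⟨g * u, hgu⟩
    simp only [map_mul, Units.val_mul] at h1
    have h2 : dd x ((ρ g : Matrix (Fin 2) (Fin 2) ℂ) *ᵥ x) =
        - dd x ((ρ g : Matrix (Fin 2) (Fin 2) ℂ) *ᵥ
          (((ρ u : Matrix (Fin 2) (Fin 2) ℂ) - 1) *ᵥ x)) := by
      rw [Matrix.sub_mulVec, Matrix.one_mulVec, Matrix.mulVec_sub, Matrix.mulVec_mulVec, h1]
      simp only [dd, Pi.sub_apply, Pi.smul_apply, smul_eq_mul]
      ring
    rw [h2, v.map_neg]
    refine (hv.dd_le _ _ (v.nonneg _) hmax (hv.mulVec_le _ _ hC0 hC (hv.mulVec_le _ _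
      (a := (1 / 2) ^ m) (by positivity) (fun i j => by simpa using hb _ hu i j)
      hmax))).trans (le_of_eq ?_)
    ring
  have hlim : Filter.Tendsto (fun m : ℕ => (v (x i) * (C * v (x i))) * ((1 / 2 : ℝ) ^ m))
      Filter.atTop (nhds 0) := by
    have := (tendsto_pow_atTop_nhds_zero_of_lt_one (r := (1 / 2 : ℝ)) (by norm_num)
      (by norm_num)).const_mul (v (x i) * (C * v (x i)))
    simpa using this
  have h0 : v (dd x ((ρ g : Matrix (Fin 2) (Fin 2) ℂ) *ᵥ x)) ≤ 0 :=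
    ge_of_tendsto' hlim key
  exact v.eq_zero.mp (le_antisymm h0 (v.nonneg _))

end

end Vale.Agent.P022
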