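import Vale.Agent.P022.H735.GDefs

/-! P11: statement of the Kronecker-Weber step (to be proved from `AR_statement` over `ℚ` and
`FG_statement`). -/

namespace Vale.Agent.P022

open NumberField

/-- A character `χ` of `GQ` with open kernel, unramified outside a finite set: for `n ≡ -1`
modulo some `M` the product of the values at the Frobenius elements of the prime factors of `n`
is the value at complex conjugation. -/
def KW_statement : Prop :=
  ∀ (A : Type) [CommGroup A] (χ : GQ →* A), IsOpen (χ.ker : Set GQ) →
    (∃ S : Finset ℕ, ∀ l : ℕ, l.Prime → l ∉ S → UnramQ χ l) →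
    ∀ c : GQ, IsConjQ c →
    ∀ F : ℕ → GQ, (∀ l : ℕ, l.Prime → IsFrobQ l (F l)) →
    ∃ M : ℕ, 0 < M ∧ ∀ n : ℕ, 0 < n → M ∣ n + 1 →
      (n.primeFactorsList.map (fun l => χ (F l))).prod = χ c

end Vale.Agent.P022
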