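import Vale.Agent.P022.H735.Prof

/-! P11: characters of `Gal (Qb/K)` with open kernel, finite level, Artin reciprocity. -/

namespace Vale.Agent.P022

open NumberField
open scoped Pointwise

noncomputable section

variable (K : Type) [Field K] [NumberField K] [Algebra K Qb]

variable {A : Type} [CommGroup A]

/-- A character with open kernel lives on a finite abelian extension. -/
theorem exists_level (χ : (Qb ≃ₐ[K] Qb) →* A) (hχ : IsOpen (χ.ker : Set (Qb ≃ₐ[K] Qb))) :
    ∃ (L : Type) (_ : Field L) (_ : NumberField L) (_ : Algebra K L) (_ : Algebra L Qb)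
      (_ : IsScalarTower K L Qb), IsGalois K L ∧ (∀ σ τ : L ≃ₐ[K] L, σ * τ = τ * σ) ∧
      ∃ (res : (Qb ≃ₐ[K] Qb) →* (L ≃ₐ[K] L)) (χL : (L ≃ₐ[K] L) →* A),
        Function.Surjective res ∧
        (∀ τ (x : L), algebraMap L Qb (res τ x) = τ (algebraMap L Qb x)) ∧
        (∀ τ, χL (res τ) = χ τ) ∧ (∀ τ, χ τ = 1 → res τ = 1) := by
  have hcl : IsClosed (χ.ker : Set (Qb ≃ₐ[K] Qb)) := Subgroup.isClosed_of_isOpen _ hχ
  let H : ClosedSubgroup (Qb ≃ₐ[K] Qb) := ⟨χ.ker, hcl⟩
  have hfix : (IntermediateField.fixedField χ.ker).fixingSubgroup = χ.ker :=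
    InfiniteGalois.fixingSubgroup_fixedField H
  set L := IntermediateField.fixedField χ.ker with hL
  have hfd : FiniteDimensional K L := by
    rw [← InfiniteGalois.isOpen_iff_finite]
    have h2 : L.fixingSubgroup.carrier = (χ.ker : Set (Qb ≃ₐ[K] Qb)) := by
      rw [← hfix]
      rfl
    rw [h2]
    exact hχ
  have hnorm : L.fixingSubgroup.Normal := by
    rw [hfix]
    infer_instance
  have hgal : IsGalois K L := (InfiniteGalois.normal_iff_isGalois L).mp hnorm
  have hnf : NumberField L := NumberField.of_module_finite K L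
  let res : (Qb ≃ₐ[K] Qb) →* (L ≃ₐ[K] L) := AlgEquiv.restrictNormalHom L
  have hsurj : Function.Surjective res := AlgEquiv.restrictNormalHom_surjective Qb
  have hker : res.ker = χ.ker := by
    rw [← hfix]
    exact IntermediateField.restrictNormalHom_ker L
  obtain ⟨s, hs⟩ := hsurj.hasRightInverse
  let χL : (L ≃ₐ[K] L) →* A := res.liftOfRightInverse s hs ⟨χ, hker.le⟩
  have hχL : ∀ τ, χL (res τ) = χ τ := fun τ =>
    res.liftOfRightInverse_comp_apply s hs ⟨χ, hker.le⟩ τ
  have hone : ∀ τ, χ τ = 1 → res τ = 1 := by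
    intro τ hτ
    have : τ ∈ χ.ker := hτ
    rw [← hker] at this
    exact this
  refine ⟨L, inferInstance, hnf, inferInstance, inferInstance, inferInstance, hgal, ?_, res, χL,
    hsurj, ?_, hχL, hone⟩
  · intro σ τ
    obtain ⟨σ', rfl⟩ := hsurj σ
    obtain ⟨τ', rfl⟩ := hsurj τ
    have h1 : res (σ' * τ' * (τ' * σ')⁻¹) = 1 := by
      apply hone
      rw [map_mul, map_inv, map_mul, map_mul, mul_comm (χ τ')]
      exact mul_inv_cancel _
    rw [map_mul, map_inv, map_mul, map_mul] at h1
    exact mul_inv_eq_one.mp h1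
  · intro τ x
    exact AlgEquiv.restrictNormal_commutes τ L x

end

end Vale.Agent.P022
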