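import Mathlib

/-! P10: linear algebra of a 2-dimensional representation with an index two subgroup of
commutative image. -/

namespace Vale.Agent.P022

open Matrix

noncomputable section

/-- The determinant of two vectors. -/
def dd (x y : Fin 2 → ℂ) : ℂ := x 0 * y 1 - x 1 * y 0

lemma exists_smul_of_dd {x y : Fin 2 → ℂ} (hx : x ≠ 0) (h : dd x y = 0) : ∃ c : ℂ, y = c • x := by
  unfold dd at h
  by_cases h0 : x 0 = 0
  · have h1 : x 1 ≠ 0 := by
      intro h1
      apply hx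
      ext i
      fin_cases i <;> simp [h0, h1]
    refine ⟨y 1 / x 1, ?_⟩
    have hy : y 0 = 0 := by
      rw [h0, zero_mul, zero_sub, neg_eq_zero] at h
      exact (mul_eq_zero.mp h).resolve_left h1
    ext i
    fin_cases i
    · simp [h0, hy]
    · simp [h1]
  · refine ⟨y 0 / x 0, ?_⟩
    ext i
    fin_cases i
    · simp [h0]
    · simp only [Fin.mk_one, Fin.isValue, Pi.smul_apply, smul_eq_mul]
      field_simp
      linear_combination h

lemma conj_of_dd {x y : Fin 2 → ℂ} (h : dd x y ≠ 0) (A T : Matrix (Fin 2) (Fin 2) ℂ)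
    (hx : A *ᵥ x = T 0 0 • x + T 1 0 • y) (hy : A *ᵥ y = T 0 1 • x + T 1 1 • y) :
    ∃ P : Matrix (Fin 2) (Fin 2) ℂ, IsUnit P.det ∧ A * P = P * T := by
  refine ⟨!![x 0, y 0; x 1, y 1], ?_, ?_⟩
  · rw [isUnit_iff_ne_zero, Matrix.det_fin_two]
    simpa [dd, mul_comm] using h
  · have hx0 := congrFun hx 0
    have hx1 := congrFun hx 1
    have hy0 := congrFun hy 0
    have hy1 := congrFun hy 1
    simp [Matrix.mulVec, dotProduct, Fin.sum_univ_two] at hx0 hx1 hy0 hy1
    ext i j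
    fin_cases i <;> fin_cases j <;> simp [Matrix.mul_apply, Fin.sum_univ_two]
    · linear_combination hx0
    · linear_combination hy0
    · linear_combination hx1
    · linear_combination hy1

lemma trace_eq_of_dd {x y : Fin 2 → ℂ} (h : dd x y ≠ 0) (A T : Matrix (Fin 2) (Fin 2) ℂ)
    (hx : A *ᵥ x = T 0 0 • x + T 1 0 • y) (hy : A *ᵥ y = T 0 1 • x + T 1 1 • y) :
    A.trace = T.trace ∧ A.det = T.det := by
  obtain ⟨P, hP, hA⟩ := conj_of_dd h A T hx hy
  have h1 : A = P * T * P⁻¹ := by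
    rw [← hA, Matrix.mul_assoc, Matrix.mul_nonsing_inv P hP, Matrix.mul_one]
  constructor
  · rw [h1, Matrix.trace_mul_cycle, Matrix.nonsing_inv_mul P hP, Matrix.one_mul]
  · rw [h1, Matrix.det_mul, Matrix.det_mul, mul_right_comm, ← Matrix.det_mul,
      Matrix.mul_nonsing_inv P hP, Matrix.det_one, one_mul]

/-- A commuting family of 2x2 matrices has a common eigenvector. -/
lemma exists_common_eigenvector (S : Set (Matrix (Fin 2) (Fin 2) ℂ))
    (hS : ∀ A ∈ S, ∀ B ∈ S, A * B = B * A) :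
    ∃ x : Fin 2 → ℂ, x ≠ 0 ∧ ∀ A ∈ S, ∃ c : ℂ, A *ᵥ x = c • x := by
  by_cases hsc : ∀ A ∈ S, ∃ c : ℂ, A = c • (1 : Matrix (Fin 2) (Fin 2) ℂ)
  · refine ⟨![1, 0], ?_, ?_⟩
    · intro h
      have := congrFun h 0
      simp at this
    · intro A hA
      obtain ⟨c, hc⟩ := hsc A hA
      exact ⟨c, by rw [hc, Matrix.smul_mulVec, Matrix.one_mulVec]⟩
  · push Not at hsc
    obtain ⟨A, hA, hsc⟩ := hsc
    obtain ⟨μ, hμ⟩ := Module.End.exists_eigenvalue (Matrix.toLin' A)
    obtain ⟨x, hx⟩ := hμ.exists_hasEigenvector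
    have hx0 : x ≠ 0 := hx.2
    have hAx : A *ᵥ x = μ • x := by
      have := hx.apply_eq_smul
      rwa [Matrix.toLin'_apply] at this
    refine ⟨x, hx0, ?_⟩
    intro B hB
    by_cases hd : dd x (B *ᵥ x) = 0
    · exact exists_smul_of_dd hx0 hd
    · exfalso
      have hy : A *ᵥ (B *ᵥ x) = μ • (B *ᵥ x) := by
        rw [Matrix.mulVec_mulVec, hS A hA B hB, ← Matrix.mulVec_mulVec, hAx, Matrix.mulVec_smul]
      obtain ⟨P, hP, h1⟩ := conj_of_dd hd A (μ • (1 : Matrix (Fin 2) (Fin 2) ℂ))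
        (by simpa using hAx) (by simpa using hy)
      apply hsc μ
      have h2 : A = P * (μ • (1 : Matrix (Fin 2) (Fin 2) ℂ)) * P⁻¹ := by
        rw [← h1, Matrix.mul_assoc, Matrix.mul_nonsing_inv P hP, Matrix.mul_one]
      rw [h2, Matrix.mul_smul, Matrix.mul_one, Matrix.smul_mul, Matrix.mul_nonsing_inv P hP]

end

end Vale.Agent.P022
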