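import Vale.Agent.P022.H735.Trace
import Vale.Agent.P022.H735.KWDefs
import Vale.Agent.P022.H120.P11a

/-! P11: openness of kernels, approximation subgroups. -/

namespace Vale.Agent.P022

open NumberField Module
open scoped Pointwise

noncomputable section

/-- For every open subgroup `U` of `GQ` the elements of `Gal (Qb/K)` lying in `U` form an open
subgroup. -/
lemma isOpen_preimage_toGQ (K : Type) [Field K] [CharZero K] [Algebra K Qb] (U : Subgroup GQ)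
    (hU : IsOpen (U : Set GQ)) : IsOpen ((U.comap (toGQHom K) : Subgroup _) : Set (Qb ≃ₐ[K] Qb)) := by
  have h1 : (U : Set GQ) ∈ nhds (1 : GQ) := hU.mem_nhds U.one_mem
  rw [krullTopology_mem_nhds_one_iff] at h1
  obtain ⟨E, hE, hEU⟩ := h1
  let b := Module.finBasis ℚ E
  have h2 : IsOpen (⋂ i, (MulAction.stabilizer (Qb ≃ₐ[K] Qb) ((b i : E) : Qb) :
      Set (Qb ≃ₐ[K] Qb))) :=
    isOpen_iInter_of_finite fun i => stabilizer_isOpen_of_isIntegral _
  apply Subgroup.isOpen_of_mem_nhds (g := 1)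
  refine Filter.mem_of_superset (h2.mem_nhds ?_) ?_
  · simp only [Set.mem_iInter]
    intro i
    exact (MulAction.stabilizer (Qb ≃ₐ[K] Qb) ((b i : E) : Qb)).one_mem
  · intro τ hτ
    simp only [Set.mem_iInter] at hτ
    change toGQ τ ∈ U
    apply hEU
    rw [SetLike.mem_coe, IntermediateField.mem_fixingSubgroup_iff]
    intro y hy
    have h5 : (toGQ τ).toLinearMap.comp E.val.toLinearMap = E.val.toLinearMap :=
      b.ext fun i => hτ i
    exact congrArg (fun f => f ⟨y, hy⟩) h5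

/-- Approximation subgroup of `ℂˣ`. -/
def Bm {v : AbsoluteValue ℂ ℝ} (hv : TwoAdic v) (m : ℕ) : Subgroup ℂˣ where
  carrier := {z | v z = 1 ∧ v ((z : ℂ) - 1) ≤ (1 / 2) ^ m}
  one_mem' := by
    refine ⟨by simp, ?_⟩
    simp
  mul_mem' := by
    rintro a b ⟨ha, ha'⟩ ⟨hb, hb'⟩
    refine ⟨by rw [Units.val_mul, map_mul, ha, hb, one_mul], ?_⟩
    have h1 : ((a * b : ℂˣ) : ℂ) - 1 = a * (b - 1) + (a - 1) := by
      rw [Units.val_mul]; ring
    rw [h1]
    apply hv.add_le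
    · rw [map_mul, ha, one_mul]
      exact hb'
    · exact ha'
  inv_mem' := by
    rintro a ⟨ha, ha'⟩
    refine ⟨by rw [Units.val_inv_eq_inv_val, map_inv₀, ha, inv_one], ?_⟩
    have h1 : ((a⁻¹ : ℂˣ) : ℂ) - 1 = - ((a : ℂ)⁻¹ * (a - 1)) := by
      rw [Units.val_inv_eq_inv_val, mul_sub, inv_mul_cancel₀ (Units.ne_zero a)]
      ring
    rw [h1, v.map_neg, map_mul, map_inv₀, ha, inv_one, one_mul]
    exact ha'

/-- The group of `v`-units modulo the approximation subgroup (all of `ℂˣ` modulo `Bm`). -/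
def Am {v : AbsoluteValue ℂ ℝ} (hv : TwoAdic v) (m : ℕ) : Type := ℂˣ ⧸ Bm hv m

instance instAm {v : AbsoluteValue ℂ ℝ} (hv : TwoAdic v) (m : ℕ) : CommGroup (Am hv m) :=
  QuotientGroup.Quotient.commGroup (Bm hv m)

/-- The projection. -/
def mkm {v : AbsoluteValue ℂ ℝ} (hv : TwoAdic v) (m : ℕ) : ℂˣ →* Am hv m :=
  QuotientGroup.mk' (Bm hv m)

lemma mkm_eq_one {v : AbsoluteValue ℂ ℝ} (hv : TwoAdic v) (m : ℕ) (z : ℂˣ) :
    mkm hv m z = 1 ↔ z ∈ Bm hv m :=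
  QuotientGroup.eq_one_iff z

lemma TwoAdic.eq_one_of_lt {v : AbsoluteValue ℂ ℝ} (hv : TwoAdic v) {z : ℂ}
    (hz : v (z - 1) < 1) : v z = 1 := by
  apply le_antisymm
  · have := hv.nonarch (z - 1) 1
    rw [sub_add_cancel, map_one] at this
    exact this.trans (max_le hz.le le_rfl)
  · have := hv.nonarch z (-(z - 1))
    rw [v.map_neg] at this
    have h2 : z + -(z - 1) = 1 := by ring
    rw [h2, map_one] at this
    rcases le_max_iff.mp this with h | h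
    · exact h
    · exact absurd h (not_le.mpr hz)

variable {v : AbsoluteValue ℂ ℝ} {ρ : GQ →* Matrix.GeneralLinearGroup (Fin 2) ℂ}
  {H : Subgroup GQ} {x : Fin 2 → ℂ} {psi : H →* ℂˣ}
  {K : Type} [Field K] [NumberField K] [Algebra K Qb] {res : GQ →* (K ≃ₐ[ℚ] K)}

/-- the determinant character modulo `2 ^ m` -/
def detm (hv : TwoAdic v) (ρ : GQ →* Matrix.GeneralLinearGroup (Fin 2) ℂ) (m : ℕ) :
    GQ →* Am hv m :=
  (mkm hv m).comp (Matrix.GeneralLinearGroup.det.comp ρ)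

lemma detm_open (hv : TwoAdic v) (hc : VContG v ρ) (m : ℕ) :
    IsOpen ((detm hv ρ m).ker : Set GQ) := by
  obtain ⟨U, hU, hb⟩ := hc (m + 1)
  refine Subgroup.isOpen_mono (H₁ := U) ?_ hU
  intro g hg
  rw [MonoidHom.mem_ker]
  change mkm hv m (Matrix.GeneralLinearGroup.det (ρ g)) = 1
  rw [mkm_eq_one]
  have hbg := hb g hg
  have hle : ((1 : ℝ) / 2) ^ (m + 1) ≤ 1 := pow_le_one₀ (by norm_num) (by norm_num)
  have h00 := hbg 0 0
  have h01 := hbg 0 1
  have h10 := hbg 1 0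
  have h11 := hbg 1 1
  simp only [Matrix.one_apply_eq, ne_eq, zero_ne_one, one_ne_zero, not_false_eq_true,
    Matrix.one_apply_ne, sub_zero] at h00 h01 h10 h11
  set a := (ρ g : Matrix (Fin 2) (Fin 2) ℂ) 0 0
  set b := (ρ g : Matrix (Fin 2) (Fin 2) ℂ) 0 1
  set c := (ρ g : Matrix (Fin 2) (Fin 2) ℂ) 1 0
  set d := (ρ g : Matrix (Fin 2) (Fin 2) ℂ) 1 1
  have hdet : ((Matrix.GeneralLinearGroup.det (ρ g) : ℂˣ) : ℂ) = a * d - b * c := by
    rw [Matrix.GeneralLinearGroup.val_det_apply, Matrix.det_fin_two]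
  have hd1 : v ((a * d - b * c) - 1) ≤ (1 / 2) ^ (m + 1) := by
    have h1 : (a * d - b * c) - 1 = ((a - 1) * (d - 1) + (a - 1) + (d - 1)) - b * c := by ring
    rw [h1]
    apply hv.sub_le
    · apply hv.add_le
      · apply hv.add_le
        · rw [map_mul]
          calc v (a - 1) * v (d - 1) ≤ (1 / 2) ^ (m + 1) * 1 :=
                mul_le_mul h00 (h11.trans hle) (v.nonneg _) (by positivity)
            _ = _ := mul_one _
        · exact h00
      · exact h11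
    · rw [map_mul]
      calc v b * v c ≤ (1 / 2) ^ (m + 1) * 1 :=
            mul_le_mul h01 (h10.trans hle) (v.nonneg _) (by positivity)
        _ = _ := mul_one _
  refine ⟨?_, ?_⟩
  · rw [hdet]
    apply hv.eq_one_of_lt
    refine lt_of_le_of_lt hd1 ?_
    exact pow_lt_one₀ (by norm_num) (by norm_num) (by omega)
  · rw [hdet]
    refine hd1.trans ?_
    exact pow_le_pow_of_le_one (by norm_num) (by norm_num) (by omega)

/-- `psi` modulo `2 ^ m` -/
def GD.psim (h : GD v ρ H x psi K res) (m : ℕ) : (Qb ≃ₐ[K] Qb) →* Am h.hv m :=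
  (mkm h.hv m).comp h.psiK

lemma GD.v_psiK (h : GD v ρ H x psi K res) (τ : Qb ≃ₐ[K] Qb) : v (h.psiK τ) = 1 :=
  h.hE.eq_one h.hv h.hc _

lemma GD.psim_open (h : GD v ρ H x psi K res) (m : ℕ) :
    IsOpen ((h.psim m).ker : Set (Qb ≃ₐ[K] Qb)) := by
  obtain ⟨U, hU, hb⟩ := h.hE.cont h.hv h.hc m
  refine Subgroup.isOpen_mono (H₁ := U.comap (toGQHom K)) ?_ (isOpen_preimage_toGQ K U hU)
  intro τ hτ
  rw [MonoidHom.mem_ker]
  change mkm h.hv m (h.psiK τ) = 1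
  rw [mkm_eq_one]
  exact ⟨h.v_psiK τ, hb _ hτ⟩

/-- hypothesis 1 of P11a -/
theorem GD.hyp1 (h : GD v ρ H x psi K res) (AR : AR_statement) (F : Ideal (𝓞 K) → (Qb ≃ₐ[K] Qb))
    (hF : ∀ 𝔭 : Ideal (𝓞 K), 𝔭.IsPrime → 𝔭 ≠ ⊥ → FrobK K 𝔭 (F 𝔭)) (m : ℕ) :
    ∃ M : ℕ, 0 < M ∧ (∀ p : ℕ, p.Prime → p ∣ M → ¬ UnramQ ρ p) ∧
      ∀ α : 𝓞 K, α ≠ 0 → α - 1 ∈ idl K M → (∀ σ : K →+* ℝ, 0 < σ α) →
        v (prodU (fun 𝔭 => (h.psiK (F 𝔭) : ℂ)) (Ideal.span {α}) - 1) ≤ (1 / 2) ^ m := by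
  obtain ⟨M, hM, hram, hrec⟩ := recip AR (by rw [h.hK]) (h.psim m) (h.psim_open m)
  refine ⟨M, hM, ?_, ?_⟩
  · intro p hp hpM hur
    obtain ⟨P, hP, hpP, τ, hτ, hne⟩ := hram p hp hpM
    apply hne
    change mkm h.hv m (h.psiK τ) = 1
    rw [h.psiK_of_inertia hur hP hpP hτ, map_one]
  · intro α hα hα1 hpos
    have h1 := hrec F hF α hα hα1 hpos
    set S := UniqueFactorizationMonoid.normalizedFactors (Ideal.span {α}) with hS
    have h2 : mkm h.hv m ((S.map fun 𝔭 => h.psiK (F 𝔭)).prod) = 1 := by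
      rw [map_multiset_prod, Multiset.map_map]
      exact h1
    rw [mkm_eq_one] at h2
    have h3 : prodU (fun 𝔭 => (h.psiK (F 𝔭) : ℂ)) (Ideal.span {α}) =
        (((S.map fun 𝔭 => h.psiK (F 𝔭)).prod : ℂˣ) : ℂ) := by
      unfold prodU
      rw [← Units.coeHom_apply, map_multiset_prod, Multiset.map_map]
      rfl
    rw [h3]
    exact h2.2

end

end Vale.Agent.P022
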