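import Vale.Agent.P022.H735.GDefs

/-! P11: the profinite Galois group acting on the ring of all algebraic integers. -/

namespace Vale.Agent.P022

open NumberField
open scoped Pointwise

noncomputable section

instance instAlgQb : Algebra.IsAlgebraic ℚ Qb := AlgebraicClosure.isAlgebraic ℚ

instance instAlgClosureQb : IsAlgClosure ℚ Qb := ⟨inferInstance, inferInstance⟩

section

variable (L : Type) [Field L] [Algebra L Qb]

lemma charZero_of_algebra : CharZero L :=
  ⟨fun m n h => by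
    have := congrArg (algebraMap L Qb) h
    simpa using this⟩

end

variable (L : Type) [Field L] [CharZero L] [Algebra L Qb]

instance instScal : IsScalarTower ℚ L Qb := inferInstance

instance instAlgL : Algebra.IsAlgebraic L Qb := Algebra.IsAlgebraic.tower_top (K := ℚ) L

instance instAlgClosureL : IsAlgClosure L Qb := ⟨inferInstance, inferInstance⟩

instance instGalL : IsGalois L Qb := inferInstance

variable {L}

omit [CharZero L] in
lemma coe_algebraMap (a : 𝓞 L) : ((algebraMap (𝓞 L) Zb a : Zb) : Qb) = algebraMap L Qb a := rfl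

omit [CharZero L] in
lemma coe_smul (g : Qb ≃ₐ[L] Qb) (b : Zb) : ((g • b : Zb) : Qb) = g (b : Qb) := rfl

lemma coe_smul' (g : GQ) (b : Zb) : ((g • b : Zb) : Qb) = g (b : Qb) := rfl

variable (L)

instance instComm : SMulCommClass (Qb ≃ₐ[L] Qb) (𝓞 L) Zb where
  smul_comm g a b := by
    apply NumberField.RingOfIntegers.ext
    rw [Algebra.smul_def, Algebra.smul_def, smul_mul']
    congr 2
    apply NumberField.RingOfIntegers.ext
    rw [coe_smul, coe_algebraMap, AlgEquiv.commutes]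

instance instInv : Algebra.IsInvariant (𝓞 L) Zb (Qb ≃ₐ[L] Qb) where
  isInvariant b hb := by
    have h1 : (b : Qb) ∈ Set.range (algebraMap L Qb) := by
      rw [InfiniteGalois.mem_range_algebraMap_iff_fixed]
      intro g
      exact congrArg (fun z : Zb => (z : Qb)) (hb g)
    obtain ⟨a, ha⟩ := h1
    have hint : IsIntegral ℤ a := by
      have h2 : IsIntegral ℤ (b : Qb) := NumberField.RingOfIntegers.isIntegral_coe b
      rw [← ha] at h2
      exact (isIntegral_algebraMap_iff (algebraMap L Qb).injective).mp h2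
    refine ⟨⟨a, hint⟩, ?_⟩
    apply NumberField.RingOfIntegers.ext
    exact ha

/-- the discrete topology on `Zb` -/
@[reducible] def topZb : TopologicalSpace Zb := ⊥

attribute [local instance] topZb

instance instDisc : DiscreteTopology Zb := ⟨rfl⟩

instance instContSMul : ContinuousSMul (Qb ≃ₐ[L] Qb) Zb := by
  rw [continuousSMul_iff_stabilizer_isOpen]
  intro x
  have h := stabilizer_isOpen_of_isIntegral (K := L) (L := Qb) (x : Qb)
  have h2 : (MulAction.stabilizer (Qb ≃ₐ[L] Qb) x : Set (Qb ≃ₐ[L] Qb)) =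
      (MulAction.stabilizer (Qb ≃ₐ[L] Qb) (x : Qb) : Set (Qb ≃ₐ[L] Qb)) := by
    ext g
    constructor
    · intro hg
      exact congrArg (fun z : Zb => (z : Qb)) hg
    · intro hg
      exact NumberField.RingOfIntegers.ext hg
  rw [h2]
  exact h

/-- transitivity on primes. -/
theorem exists_smul_eq (P Q : Ideal Zb) [P.IsPrime] [Q.IsPrime]
    (h : P.comap (algebraMap (𝓞 L) Zb) = Q.comap (algebraMap (𝓞 L) Zb)) :
    ∃ g : Qb ≃ₐ[L] Qb, Q = g • P :=
  Algebra.IsInvariant.exists_smul_of_under_eq_of_profinite (A := 𝓞 L) P Q h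

theorem stab_surj (P : Ideal Zb) [P.IsPrime] :
    Function.Surjective (Ideal.Quotient.stabilizerHom P (P.under (𝓞 L)) (Qb ≃ₐ[L] Qb)) :=
  Ideal.Quotient.stabilizerHom_surjective_of_profinite (P.under (𝓞 L)) P

/-- `q`-th roots exist in `Zb`. -/
lemma exists_root (q : ℕ) (hq : 0 < q) (x : Zb) : ∃ y : Zb, y ^ q = x := by
  obtain ⟨y, hy⟩ := IsAlgClosed.exists_pow_nat_eq (x : Qb) hq
  have hint : IsIntegral ℤ y := by
    apply IsIntegral.of_pow hq
    rw [hy]
    exact NumberField.RingOfIntegers.isIntegral_coe x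
  refine ⟨⟨y, hint⟩, ?_⟩
  apply NumberField.RingOfIntegers.ext
  exact hy

/-- The `p^k`-th power automorphism of `Zb / P`. -/
lemma exists_powEquiv (P : Ideal Zb) [P.IsPrime] (p k : ℕ) (hp : p.Prime) (hpP : (p : Zb) ∈ P) :
    ∃ φ : (Zb ⧸ P) ≃+* (Zb ⧸ P), ∀ z, φ z = z ^ p ^ k := by
  have h0 : ((p : ℕ) : Zb ⧸ P) = 0 := by
    rw [← map_natCast (Ideal.Quotient.mk P), Ideal.Quotient.eq_zero_iff_mem]
    exact hpP
  have hchar : CharP (Zb ⧸ P) p := (CharP.charP_iff_prime_eq_zero hp).mpr h0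
  have hex : ExpChar (Zb ⧸ P) p := .prime hp
  have hpos : 0 < p ^ k := pow_pos hp.pos k
  refine ⟨RingEquiv.ofBijective (iterateFrobenius (Zb ⧸ P) p k) ⟨?_, ?_⟩, fun z => ?_⟩
  · exact iterateFrobenius_inj _ _ _
  · intro z
    obtain ⟨x, rfl⟩ := Ideal.Quotient.mk_surjective z
    obtain ⟨y, hy⟩ := exists_root (p ^ k) hpos x
    refine ⟨Ideal.Quotient.mk P y, ?_⟩
    rw [iterateFrobenius_def, ← map_pow, hy]
  · rfl

lemma powAt_iff {q : ℕ} {P : Ideal Zb} {σ : GQ} : PowAt q P σ ↔ ∀ x : Zb, σ • x - x ^ q ∈ P := by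
  constructor
  · intro h x
    exact h x (σ • x) rfl
  · intro h x y hy
    have : y = σ • x := NumberField.RingOfIntegers.ext hy
    rw [this]
    exact h x

/-- an element of `Gal (Qb/L)` as an element of `GQ`. -/
abbrev toGQ {L : Type} [Field L] [CharZero L] [Algebra L Qb] (g : Qb ≃ₐ[L] Qb) : GQ :=
  g.restrictScalars ℚ

lemma toGQ_mul (g h : Qb ≃ₐ[L] Qb) : toGQ (g * h) = toGQ g * toGQ h := rfl

lemma toGQ_smul_ideal (g : Qb ≃ₐ[L] Qb) (P : Ideal Zb) : toGQ g • P = g • P := rfl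

/-- Key lifting lemma: if `σ` acts as `x ↦ x ^ q` on the image of `𝓞 L` in `Zb / P` then some
`σ τ` with `τ ∈ Gal (Qb/L)` does so on all of `Zb / P`. -/
theorem exists_pow_lift (P : Ideal Zb) [P.IsPrime] (p k : ℕ) (hp : p.Prime) (hpP : (p : Zb) ∈ P)
    (σ : GQ) (hσ : ∀ x : 𝓞 L, σ • algebraMap (𝓞 L) Zb x - algebraMap (𝓞 L) Zb x ^ (p ^ k) ∈ P) :
    ∃ τ : Qb ≃ₐ[L] Qb, PowAt (p ^ k) P (σ * toGQ τ) := by
  have hpos : 0 < p ^ k := pow_pos hp.pos k
  -- step 1
  have h1 : P.comap (algebraMap (𝓞 L) Zb) = (σ⁻¹ • P).comap (algebraMap (𝓞 L) Zb) := by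
    ext x
    rw [Ideal.mem_comap, Ideal.mem_comap, Ideal.mem_inv_pointwise_smul_iff]
    constructor
    · intro h
      have h2 := P.add_mem (hσ x) (P.pow_mem_of_mem h _ hpos)
      simpa using h2
    · intro h
      have h2 := P.sub_mem h (hσ x)
      rw [sub_sub_cancel] at h2
      exact Ideal.IsPrime.mem_of_pow_mem inferInstance _ h2
  have : (σ⁻¹ • P).IsPrime := inferInstance
  obtain ⟨g, hg⟩ := exists_smul_eq L P (σ⁻¹ • P) h1
  -- step 2
  set σ1 : GQ := σ * toGQ g with hσ1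
  have hst : σ1 • P = P := by
    rw [hσ1, mul_smul, toGQ_smul_ideal, ← hg, smul_inv_smul]
  have hσ1' : ∀ x : 𝓞 L, σ1 • algebraMap (𝓞 L) Zb x = σ • algebraMap (𝓞 L) Zb x := by
    intro x
    rw [hσ1, mul_smul]
    congr 1
    apply NumberField.RingOfIntegers.ext
    rw [coe_smul', coe_algebraMap]
    exact g.commutes _
  -- step 3
  let s : (Zb ⧸ P) ≃+* (Zb ⧸ P) := Ideal.quotientEquiv P P
    (MulSemiringAction.toRingEquiv GQ Zb σ1) (by
      conv_lhs => rw [← hst]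
      rfl)
  have hs : ∀ x : Zb, s (Ideal.Quotient.mk P x) = Ideal.Quotient.mk P (σ1 • x) := fun x => rfl
  obtain ⟨φ, hφ⟩ := exists_powEquiv P p k hp hpP
  -- step 4
  let t : (Zb ⧸ P) ≃+* (Zb ⧸ P) := φ.trans s.symm
  have ht : ∀ z, s (t z) = z ^ p ^ k := by
    intro z
    simp [t, hφ]
  let t' : (Zb ⧸ P) ≃ₐ[𝓞 L ⧸ P.under (𝓞 L)] (Zb ⧸ P) := AlgEquiv.ofRingEquiv (f := t) (by
    intro x
    obtain ⟨x, rfl⟩ := Ideal.Quotient.mk_surjective x
    apply s.injective
    rw [ht]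
    have h3 : algebraMap (𝓞 L ⧸ P.under (𝓞 L)) (Zb ⧸ P) (Ideal.Quotient.mk _ x) =
      Ideal.Quotient.mk P (algebraMap (𝓞 L) Zb x) := rfl
    rw [h3, hs, hσ1', ← map_pow, eq_comm, Ideal.Quotient.eq]
    exact hσ x)
  -- step 5
  obtain ⟨τ2, hτ2⟩ := stab_surj L P t'
  have h5 : ∀ b : Zb, Ideal.Quotient.mk P (σ1 • ((τ2 : Qb ≃ₐ[L] Qb) • b)) =
      Ideal.Quotient.mk P (b ^ p ^ k) := by
    intro b
    have h6 : Ideal.Quotient.mk P ((τ2 : Qb ≃ₐ[L] Qb) • b) = t (Ideal.Quotient.mk P b) := by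
      have := congrArg (fun f => f (Ideal.Quotient.mk P b)) hτ2
      exact this
    rw [← hs, h6, ht, map_pow]
  refine ⟨g * τ2, ?_⟩
  rw [powAt_iff]
  intro x
  rw [← Ideal.Quotient.eq, ← h5 x]
  congr 1

end

end Vale.Agent.P022
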