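import Vale.Agent.P022.H735.Lin

/-! P10: the character `psi` of an index two subgroup. -/

namespace Vale.Agent.P022

open Matrix

noncomputable section

variable {G : Type*} [Group G]

/-- `x` is a common eigenvector of `H` with character `psi`. -/
def IsEig (ρ : G →* Matrix.GeneralLinearGroup (Fin 2) ℂ) (H : Subgroup G) (x : Fin 2 → ℂ)
    (psi : H →* ℂˣ) : Prop :=
  x ≠ 0 ∧ ∀ h : H, (ρ h : Matrix (Fin 2) (Fin 2) ℂ) *ᵥ x = (psi h : ℂ) • x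

/-- No common eigenvector. -/
def Irr (ρ : G →* Matrix.GeneralLinearGroup (Fin 2) ℂ) : Prop :=
  ∀ x : Fin 2 → ℂ, x ≠ 0 → ∃ g : G, ∀ c : ℂ, (ρ g : Matrix (Fin 2) (Fin 2) ℂ) *ᵥ x ≠ c • x

lemma smul_cancel {x : Fin 2 → ℂ} (hx : x ≠ 0) {a b : ℂ} (h : a • x = b • x) : a = b :=
  smul_left_injective ℂ hx h

theorem exists_psi (ρ : G →* Matrix.GeneralLinearGroup (Fin 2) ℂ) (H : Subgroup G)
    (hab : ∀ a ∈ H, ∀ b ∈ H, ρ a * ρ b = ρ b * ρ a) :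
    ∃ (x : Fin 2 → ℂ) (psi : H →* ℂˣ), IsEig ρ H x psi := by
  obtain ⟨x, hx, hS⟩ := exists_common_eigenvector
    {A | ∃ h ∈ H, A = (ρ h : Matrix (Fin 2) (Fin 2) ℂ)} (by
      rintro _ ⟨a, ha, rfl⟩ _ ⟨b, hb, rfl⟩
      have := hab a ha b hb
      have h2 := congrArg (fun u : Matrix.GeneralLinearGroup (Fin 2) ℂ =>
        (u : Matrix (Fin 2) (Fin 2) ℂ)) this
      simpa using h2)
  have hS' : ∀ h : H, ∃ c : ℂ, (ρ h : Matrix (Fin 2) (Fin 2) ℂ) *ᵥ x = c • x :=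
    fun h => hS _ ⟨h, h.2, rfl⟩
  choose c hc using hS'
  have h1 : c 1 = 1 := by
    apply smul_cancel hx
    rw [← hc 1]
    simp
  have hmul : ∀ a b : H, c (a * b) = c a * c b := by
    intro a b
    apply smul_cancel hx
    rw [← hc (a * b)]
    have : (ρ ((a * b : H) : G) : Matrix (Fin 2) (Fin 2) ℂ) =
        (ρ a : Matrix (Fin 2) (Fin 2) ℂ) * (ρ b : Matrix (Fin 2) (Fin 2) ℂ) := by
      simp
    rw [this, ← Matrix.mulVec_mulVec, hc b, Matrix.mulVec_smul, hc a, smul_smul, mul_comm]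
  let φ : H →* ℂ := { toFun := c, map_one' := h1, map_mul' := hmul }
  refine ⟨x, φ.toHomUnits, hx, fun h => ?_⟩
  rw [hc h]
  rfl

variable {ρ : G →* Matrix.GeneralLinearGroup (Fin 2) ℂ} {H : Subgroup G} {x : Fin 2 → ℂ}
  {psi : H →* ℂˣ}

lemma IsEig.dd_ne (hE : IsEig ρ H x psi) (hH : H.index = 2) (hirr : Irr ρ) {c : G} (hc : c ∉ H) :
    dd x ((ρ c : Matrix (Fin 2) (Fin 2) ℂ) *ᵥ x) ≠ 0 := by
  intro h
  obtain ⟨μ, hμ⟩ := exists_smul_of_dd hE.1 h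
  obtain ⟨g, hg⟩ := hirr x hE.1
  by_cases hgH : g ∈ H
  · exact hg _ (hE.2 ⟨g, hgH⟩)
  · have h2 : c⁻¹ * g ∈ H := by
      rw [Subgroup.mul_mem_iff_of_index_two hH, inv_mem_iff]
      exact ⟨fun h => absurd h hc, fun h => absurd h hgH⟩
    apply hg ((psi ⟨c⁻¹ * g, h2⟩ : ℂ) * μ)
    have h3 := hE.2 ⟨c⁻¹ * g, h2⟩
    have h4 : (ρ g : Matrix (Fin 2) (Fin 2) ℂ) =
        (ρ c : Matrix (Fin 2) (Fin 2) ℂ) * (ρ (c⁻¹ * g) : Matrix (Fin 2) (Fin 2) ℂ) := by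
      have : g = c * (c⁻¹ * g) := by group
      conv_lhs => rw [this]
      rw [map_mul]
      simp
    rw [h4, ← Matrix.mulVec_mulVec]
    rw [h3, Matrix.mulVec_smul, hμ, smul_smul]

lemma IsEig.conj_mem (hH : H.index = 2) (c : G) (h : H) : c⁻¹ * h * c ∈ H := by
  have := Subgroup.normal_of_index_eq_two hH
  have h2 := this.conj_mem h h.2 c⁻¹
  simpa using h2

lemma IsEig.trace_mem (hE : IsEig ρ H x psi) (hH : H.index = 2) (hirr : Irr ρ) {c : G}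
    (hc : c ∉ H) (h : H) :
    (ρ h : Matrix (Fin 2) (Fin 2) ℂ).trace =
        psi h + psi ⟨c⁻¹ * h * c, IsEig.conj_mem hH c h⟩ ∧
      (ρ h : Matrix (Fin 2) (Fin 2) ℂ).det =
        psi h * psi ⟨c⁻¹ * h * c, IsEig.conj_mem hH c h⟩ := by
  have hd := hE.dd_ne hH hirr hc
  set h' : H := ⟨c⁻¹ * h * c, IsEig.conj_mem hH c h⟩ with hh'
  have key := trace_eq_of_dd hd (ρ h : Matrix (Fin 2) (Fin 2) ℂ)
    !![(psi h : ℂ), 0; 0, (psi h' : ℂ)] (by simpa using hE.2 h) (by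
      have h4 : (ρ h : Matrix (Fin 2) (Fin 2) ℂ) * (ρ c : Matrix (Fin 2) (Fin 2) ℂ) =
          (ρ c : Matrix (Fin 2) (Fin 2) ℂ) * (ρ h' : Matrix (Fin 2) (Fin 2) ℂ) := by
        rw [← Units.val_mul, ← Units.val_mul, ← map_mul, ← map_mul]
        congr 2
        simp only [hh']
        group
      rw [Matrix.mulVec_mulVec, h4, ← Matrix.mulVec_mulVec, hE.2 h', Matrix.mulVec_smul]
      simp)
  rw [key.1, key.2]
  simp [Matrix.trace_fin_two, Matrix.det_fin_two]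

lemma IsEig.sq_mem (hH : H.index = 2) (c : G) : c * c ∈ H := by
  rw [Subgroup.mul_mem_iff_of_index_two hH]

lemma IsEig.trace_not_mem (hE : IsEig ρ H x psi) (hH : H.index = 2) (hirr : Irr ρ) {c : G}
    (hc : c ∉ H) :
    (ρ c : Matrix (Fin 2) (Fin 2) ℂ).trace = 0 ∧
      (ρ c : Matrix (Fin 2) (Fin 2) ℂ).det = - psi ⟨c * c, IsEig.sq_mem hH c⟩ := by
  have hd := hE.dd_ne hH hirr hc
  set h' : H := ⟨c * c, IsEig.sq_mem hH c⟩ with hh'
  have key := trace_eq_of_dd hd (ρ c : Matrix (Fin 2) (Fin 2) ℂ)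
    !![0, (psi h' : ℂ); 1, 0] (by simp) (by
      have h4 : (ρ c : Matrix (Fin 2) (Fin 2) ℂ) * (ρ c : Matrix (Fin 2) (Fin 2) ℂ) =
          (ρ h' : Matrix (Fin 2) (Fin 2) ℂ) := by
        rw [← Units.val_mul, ← map_mul]
      rw [Matrix.mulVec_mulVec, h4, hE.2 h']
      simp)
  rw [key.1, key.2]
  simp [Matrix.trace_fin_two, Matrix.det_fin_two]

/-- elements acting trivially lie in `H` and in the kernel of `psi`. -/
lemma IsEig.of_eq_one (hE : IsEig ρ H x psi) (hH : H.index = 2) (hirr : Irr ρ) {g : G}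
    (hg : ρ g = 1) : ∃ hm : g ∈ H, psi ⟨g, hm⟩ = 1 := by
  have hm : g ∈ H := by
    by_contra hc
    have := (hE.trace_not_mem hH hirr hc).1
    rw [hg] at this
    simp [Matrix.trace_fin_two] at this
  refine ⟨hm, ?_⟩
  have h1 := hE.2 ⟨g, hm⟩
  simp only [hg] at h1
  ext
  apply smul_cancel hE.1
  rw [← h1]
  simp

end

end Vale.Agent.P022
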