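import Vale.Agent.P022.H735.Recip

/-! P11: the quadratic field of an open subgroup of index two. -/

namespace Vale.Agent.P022

open NumberField
open scoped Pointwise

noncomputable section

/-- sign character of an index two subgroup -/
def sgnH {G : Type*} [Group G] (H : Subgroup G) (hH : H.index = 2) : G →* ℤˣ := by
  classical
  exact
  { toFun := fun g => if g ∈ H then 1 else -1
    map_one' := by simp [H.one_mem]
    map_mul' := fun a b => by
      by_cases ha : a ∈ H <;> by_cases hb : b ∈ H <;>
        simp [Subgroup.mul_mem_iff_of_index_two hH, ha, hb] }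

lemma sgnH_eq_one {G : Type*} [Group G] (H : Subgroup G) (hH : H.index = 2) (g : G) :
    sgnH H hH g = 1 ↔ g ∈ H := by
  classical
  unfold sgnH
  simp only [MonoidHom.coe_mk, OneHom.coe_mk]
  by_cases h : g ∈ H <;> simp [h]

/-- The quadratic field cut out by `H`. -/
theorem exists_K (H : Subgroup GQ) (hH : H.index = 2) (hop : IsOpen (H : Set GQ)) :
    ∃ (K : Type) (_ : Field K) (_ : NumberField K) (_ : Algebra K Qb),
      Module.finrank ℚ K = 2 ∧ ∃ res : GQ →* (K ≃ₐ[ℚ] K), Function.Surjective res ∧
        (∀ σ (x : K), algebraMap K Qb (res σ x) = σ (algebraMap K Qb x)) ∧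
        (∀ σ, σ ∈ H ↔ res σ = 1) := by
  have hker : (sgnH H hH).ker = H := by
    ext g
    rw [MonoidHom.mem_ker, sgnH_eq_one]
  obtain ⟨K, _, _, iA, _, _, hgal, -, res, χL, hsurj, hres, hχL, hone⟩ :=
    exists_level ℚ (sgnH H hH) (by rw [hker]; exact hop)
  obtain rfl : iA = DivisionRing.toRatAlgebra := Subsingleton.elim _ _
  have hH2 : ∀ σ, σ ∈ H ↔ res σ = 1 := by
    intro σ
    constructor
    · intro h
      exact hone σ ((sgnH_eq_one H hH σ).mpr h)
    · intro h
      rw [← sgnH_eq_one H hH σ, ← hχL σ, h, map_one]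
  refine ⟨K, inferInstance, inferInstance, inferInstance, ?_, res, hsurj, hres, hH2⟩
  rw [← IsGalois.card_aut_eq_finrank ℚ K]
  have hker2 : res.ker = H := by
    ext g
    rw [MonoidHom.mem_ker, hH2]
  rw [← hH, ← hker2, Subgroup.index_ker, MonoidHom.range_eq_top.mpr hsurj]
  exact Nat.card_congr (Subgroup.topEquiv.toEquiv).symm

end

end Vale.Agent.P022
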