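import Vale.Agent.P022.H735.Frob
import Vale.Agent.P022.H735.Cont
import Vale.Agent.P022.H436.HeckeRel

/-! P11: traces and determinants of Frobenius in terms of `psi`. -/

namespace Vale.Agent.P022

open NumberField Module
open scoped Pointwise

noncomputable section

/-- `Gal (Qb/K) → GQ` as a homomorphism. -/
def toGQHom (K : Type) [Field K] [CharZero K] [Algebra K Qb] : (Qb ≃ₐ[K] Qb) →* GQ where
  toFun := toGQ
  map_one' := rfl
  map_mul' _ _ := rfl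

/-- All data on the Galois side. -/
structure GD (v : AbsoluteValue ℂ ℝ) (ρ : GQ →* Matrix.GeneralLinearGroup (Fin 2) ℂ)
    (H : Subgroup GQ) (x : Fin 2 → ℂ) (psi : H →* ℂˣ)
    (K : Type) [Field K] [NumberField K] [Algebra K Qb] (res : GQ →* (K ≃ₐ[ℚ] K)) : Prop where
  hv : TwoAdic v
  hc : VContG v ρ
  hirr : Irr ρ
  hH : H.index = 2
  hE : IsEig ρ H x psi
  hK : finrank ℚ K = 2
  hres : ∀ σ (x : K), algebraMap K Qb (res σ x) = σ (algebraMap K Qb x)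
  hmem : ∀ σ, σ ∈ H ↔ res σ = 1

namespace GD

variable {v : AbsoluteValue ℂ ℝ} {ρ : GQ →* Matrix.GeneralLinearGroup (Fin 2) ℂ}
  {H : Subgroup GQ} {x : Fin 2 → ℂ} {psi : H →* ℂˣ}
  {K : Type} [Field K] [NumberField K] [Algebra K Qb] {res : GQ →* (K ≃ₐ[ℚ] K)}

variable (h : GD v ρ H x psi K res)

include h in
lemma toGQ_mem (τ : Qb ≃ₐ[K] Qb) : toGQ τ ∈ H := (h.hmem _).mpr (res_toGQ h.hres τ)

/-- `psi` as a character of `Gal (Qb/K)`. -/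
def psiK : (Qb ≃ₐ[K] Qb) →* ℂˣ :=
  psi.comp ((toGQHom K).codRestrict H (fun τ => h.toGQ_mem τ))

lemma psiK_apply (τ : Qb ≃ₐ[K] Qb) : h.psiK τ = psi ⟨toGQ τ, h.toGQ_mem τ⟩ := rfl

include h in
lemma res_of_inertia {p : ℕ} (hur : UnramQ ρ p) {P : Ideal Zb} (hP : P.IsPrime)
    (hpP : (p : Zb) ∈ P) {σ : GQ} (hσ : PowAt 1 P σ) : res σ = 1 := by
  obtain ⟨hm, -⟩ := h.hE.of_eq_one h.hH h.hirr (hur P hP hpP σ hσ)
  exact (h.hmem σ).mp hm

lemma psiK_of_inertia {p : ℕ} (hur : UnramQ ρ p) {P : Ideal Zb} (hP : P.IsPrime)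
    (hpP : (p : Zb) ∈ P) {τ : Qb ≃ₐ[K] Qb} (hτ : PowAt 1 P (toGQ τ)) : h.psiK τ = 1 := by
  obtain ⟨hm, h1⟩ := h.hE.of_eq_one h.hH h.hirr (hur P hP hpP _ hτ)
  exact h1

include h in
lemma exists_not_mem : ∃ c : GQ, c ∉ H := by
  by_contra hcon
  push Not at hcon
  have h1 : H = ⊤ := by ext; simp [hcon]
  have h2 := h.hH
  rw [h1] at h2
  simp at h2

include h in
lemma not_res {c : GQ} (hc : c ∉ H) : res c ≠ 1 := fun h1 => hc ((h.hmem c).mpr h1)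

omit [NumberField K] in
lemma mem_comap_inv {P : Ideal Zb} {c : GQ} {y : 𝓞 K} :
    y ∈ (c⁻¹ • P).comap (algebraMap (𝓞 K) Zb) ↔ c • algebraMap (𝓞 K) Zb y ∈ P := by
  rw [Ideal.mem_comap, Ideal.mem_inv_pointwise_smul_iff]

include h in
/-- `𝔭 ^ c = 𝔭` with residue field `F_l` is impossible at an unramified prime for `c ∉ H`. -/
lemma conj_ne {l : ℕ} (hl : l.Prime) (hur : UnramQ ρ l) {P : Ideal Zb} (hP : P.IsPrime)
    (hlP : (l : Zb) ∈ P) {c : GQ} (hc : c ∉ H)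
    (hN : Ideal.absNorm (P.comap (algebraMap (𝓞 K) Zb)) = l) :
    (c⁻¹ • P).comap (algebraMap (𝓞 K) Zb) ≠ P.comap (algebraMap (𝓞 K) Zb) := by
  intro heq
  apply h.not_res hc
  apply res_eq_one_of_congr h.hres P hP hl hlP (fun τ hτ => h.res_of_inertia hur hP hlP hτ)
  intro y
  obtain ⟨a, ha⟩ := exists_int_of_absNorm hl hN y
  have h1 : y - a ∈ (c⁻¹ • P).comap (algebraMap (𝓞 K) Zb) := by rw [heq]; exact ha
  rw [mem_comap_inv] at h1
  rw [Ideal.mem_comap] at ha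
  have h2 := P.sub_mem h1 ha
  have h3 : c • algebraMap (𝓞 K) Zb (y - a) - algebraMap (𝓞 K) Zb (y - a) =
      c • algebraMap (𝓞 K) Zb y - algebraMap (𝓞 K) Zb y := by
    have h4 : c • ((a : ℤ) : Zb) = ((a : ℤ) : Zb) := by
      have := map_intCast (MulSemiringAction.toRingHom GQ Zb c) a
      exact this
    rw [map_sub, map_intCast, smul_sub, h4]
    ring
  rwa [h3] at h2

/-- primes above `l` divide `(l)`. -/
lemma mem_of_span {l : ℕ} (hl : l.Prime) {𝔭 Q1 Q2 : Ideal (𝓞 K)} (h𝔭 : 𝔭.IsPrime)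
    (hlp : (l : 𝓞 K) ∈ 𝔭) (hsp : Ideal.span {(l : 𝓞 K)} = Q1 * Q2)
    (h1 : Ideal.absNorm Q1 = l) (h2 : Ideal.absNorm Q2 = l) : 𝔭 = Q1 ∨ 𝔭 = Q2 := by
  have hle : Q1 * Q2 ≤ 𝔭 := by
    rw [← hsp, Ideal.span_singleton_le_iff_mem]
    exact hlp
  have key : ∀ Q : Ideal (𝓞 K), Ideal.absNorm Q = l → Q ≤ 𝔭 → 𝔭 = Q := by
    intro Q hQ hQp
    have hQ' : Q.IsPrime := H436.isPrime_of_absNorm_prime hl hQ
    have hQ0 : Q ≠ ⊥ := by
      rintro rfl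
      rw [Ideal.absNorm_bot] at hQ
      exact hl.ne_zero hQ.symm
    have hmax : Q.IsMaximal := hQ'.isMaximal hQ0
    exact (hmax.eq_of_le h𝔭.ne_top hQp).symm
  rcases h𝔭.mul_le.mp hle with h3 | h3
  · left; exact key Q1 h1 h3
  · right; exact key Q2 h2 h3

lemma natCast_mem_smul {l : ℕ} {P : Ideal Zb} (hlP : (l : Zb) ∈ P) (c : GQ) :
    (l : Zb) ∈ c⁻¹ • P := by
  rw [Ideal.mem_inv_pointwise_smul_iff]
  have h4 : c • ((l : ℕ) : Zb) = ((l : ℕ) : Zb) := by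
    have := map_natCast (MulSemiringAction.toRingHom GQ Zb c) l
    exact this
  rw [h4]
  exact hlP

lemma natCast_mem_comap {l : ℕ} {P : Ideal Zb} (hlP : (l : Zb) ∈ P) :
    (l : 𝓞 K) ∈ P.comap (algebraMap (𝓞 K) Zb) := by
  rw [Ideal.mem_comap, map_natCast]
  exact hlP

lemma powAt_conj {l : ℕ} {P : Ideal Zb} {σ : GQ} (hpow : PowAt l P σ) (c : GQ) :
    PowAt l (c⁻¹ • P) (c⁻¹ * σ * c) := by
  rw [powAt_iff] at hpow ⊢
  intro x
  rw [Ideal.mem_inv_pointwise_smul_iff]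
  have h1 := hpow (c • x)
  have h2 : c • ((c⁻¹ * σ * c) • x - x ^ l) = σ • c • x - (c • x) ^ l := by
    rw [smul_sub, smul_pow', mul_smul, mul_smul, smul_inv_smul]
  rw [h2]
  exact h1

lemma powAt_sq {l : ℕ} {P : Ideal Zb} {σ : GQ} (hpow : PowAt l P σ) (hl : 0 < l) :
    PowAt (l ^ 2) P (σ * σ) := by
  rw [powAt_iff] at hpow ⊢
  intro x
  have h1 := hpow (σ • x)
  have h2 := hpow x
  have h3 : (σ • x) ^ l - (x ^ l) ^ l ∈ P :=
    P.mem_of_dvd (sub_dvd_pow_sub_pow _ _ l) h2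
  have h4 := P.add_mem h1 h3
  rw [sub_add_sub_cancel] at h4
  rw [mul_smul, sq, pow_mul]
  exact h4

/-- uniqueness for `psiK` -/
lemma psiK_unique {l : ℕ} (hur : UnramQ ρ l) {𝔭 : Ideal (𝓞 K)} (hl𝔭 : (l : 𝓞 K) ∈ 𝔭)
    {τ1 τ2 : Qb ≃ₐ[K] Qb} (h1 : FrobK K 𝔭 τ1) (h2 : FrobK K 𝔭 τ2) : h.psiK τ1 = h.psiK τ2 := by
  refine frobK_unique h.psiK 𝔭 ?_ h1 h2
  intro P hP hP𝔭 τ hτ
  refine h.psiK_of_inertia hur hP ?_ hτ
  rw [← hP𝔭, Ideal.mem_comap, map_natCast] at hl𝔭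
  exact hl𝔭

/-- The shape of Frobenius at an odd prime at which `ρ` is unramified. -/
theorem frob_cases (F : Ideal (𝓞 K) → (Qb ≃ₐ[K] Qb))
    (hF : ∀ 𝔭 : Ideal (𝓞 K), 𝔭.IsPrime → 𝔭 ≠ ⊥ → FrobK K 𝔭 (F 𝔭))
    {l : ℕ} (hl : l.Prime) (hl2 : l ≠ 2) (hur : UnramQ ρ l) {σ : GQ} (hσ : IsFrobQ l σ) :
    (jacobiSym (discr K) l = 1 ∧ ∃ 𝔭 𝔭' : Ideal (𝓞 K), 𝔭 ≠ 𝔭' ∧ Ideal.absNorm 𝔭 = l ∧
      Ideal.absNorm 𝔭' = l ∧ Ideal.span {(l : 𝓞 K)} = 𝔭 * 𝔭' ∧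
      (ρ σ : Matrix (Fin 2) (Fin 2) ℂ).trace = h.psiK (F 𝔭) + h.psiK (F 𝔭') ∧
      (ρ σ : Matrix (Fin 2) (Fin 2) ℂ).det = h.psiK (F 𝔭) * h.psiK (F 𝔭')) ∨
    (jacobiSym (discr K) l = -1 ∧ (∀ 𝔭 : Ideal (𝓞 K), Ideal.absNorm 𝔭 ≠ l) ∧
      (Ideal.span {(l : 𝓞 K)}).IsPrime ∧
      (ρ σ : Matrix (Fin 2) (Fin 2) ℂ).trace = 0 ∧
      (ρ σ : Matrix (Fin 2) (Fin 2) ℂ).det = - h.psiK (F (Ideal.span {(l : 𝓞 K)}))) := by
  obtain ⟨q⟩ := H436.exists_QD h.hK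
  obtain ⟨P, hP, hlP, hpow⟩ := hσ
  obtain ⟨c, hc⟩ := h.exists_not_mem
  set 𝔭 := P.comap (algebraMap (𝓞 K) Zb) with h𝔭def
  have h𝔭 : 𝔭.IsPrime := inferInstance
  have hl𝔭 : (l : 𝓞 K) ∈ 𝔭 := natCast_mem_comap hlP
  have hP' : (c⁻¹ • P).IsPrime := inferInstance
  set 𝔭' := (c⁻¹ • P).comap (algebraMap (𝓞 K) Zb) with h𝔭'def
  have h𝔭' : 𝔭'.IsPrime := inferInstance
  have hlP' := natCast_mem_smul hlP c
  have hl𝔭' : (l : 𝓞 K) ∈ 𝔭' := natCast_mem_comap hlP'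
  have hpow' := (powAt_iff).mp hpow
  -- the ramified case is impossible
  have hcases := q.split_cases hl hl2
  have hcases' : (jacobiSym (discr K) l = 1 ∧ ∃ P P' : Ideal (𝓞 K), P ≠ P' ∧ Ideal.absNorm P = l ∧
      Ideal.absNorm P' = l ∧ Ideal.span {(l : 𝓞 K)} = P * P') ∨
      (jacobiSym (discr K) l = -1 ∧ ∀ P : Ideal (𝓞 K), Ideal.absNorm P ≠ l) := by
    rcases hcases with h1 | ⟨-, Q, hQ, hsp⟩ | h1
    · left; exact h1
    · exfalso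
      have e1 : 𝔭 = Q := by rcases mem_of_span hl h𝔭 hl𝔭 hsp hQ hQ with h | h <;> exact h
      have e2 : 𝔭' = Q := by rcases mem_of_span hl h𝔭' hl𝔭' hsp hQ hQ with h | h <;> exact h
      exact h.conj_ne hl hur hP hlP hc (by rw [← h𝔭def, e1, hQ]) (by rw [← h𝔭def, ← h𝔭'def, e1, e2])
    · right; exact h1
  by_cases hσH : σ ∈ H
  · -- split case
    have hres1 : res σ = 1 := (h.hmem σ).mp hσH
    obtain ⟨τ, hτ⟩ := exists_toGQ h.hres hres1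
    have hxx : ∀ y : 𝓞 K, y ^ l - y ∈ 𝔭 := by
      intro y
      have h1 := hpow' (algebraMap (𝓞 K) Zb y)
      have h2 : σ • algebraMap (𝓞 K) Zb y = algebraMap (𝓞 K) Zb y := by
        apply NumberField.RingOfIntegers.ext
        rw [coe_smul', coe_algebraMap, ← h.hres, hres1]
        rfl
      rw [h2, ← map_pow, ← map_sub] at h1
      have h3 := 𝔭.neg_mem (show y - y ^ l ∈ 𝔭 from h1)
      simpa using h3
    have hN : Ideal.absNorm 𝔭 = l := absNorm_eq_of_pow h𝔭 hl hl𝔭 hxx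
    -- conjugate
    have hσc : c⁻¹ * σ * c ∈ H := IsEig.conj_mem h.hH c ⟨σ, hσH⟩
    have hres2 : res (c⁻¹ * σ * c) = 1 := (h.hmem _).mp hσc
    obtain ⟨τ', hτ'⟩ := exists_toGQ h.hres hres2
    have hpowc := powAt_conj hpow c
    have hpowc' := (powAt_iff).mp hpowc
    have hxx' : ∀ y : 𝓞 K, y ^ l - y ∈ 𝔭' := by
      intro y
      have h1 := hpowc' (algebraMap (𝓞 K) Zb y)
      have h2 : (c⁻¹ * σ * c) • algebraMap (𝓞 K) Zb y = algebraMap (𝓞 K) Zb y := by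
        apply NumberField.RingOfIntegers.ext
        rw [coe_smul', coe_algebraMap, ← h.hres, hres2]
        rfl
      rw [h2, ← map_pow, ← map_sub] at h1
      have h3 := 𝔭'.neg_mem (show y - y ^ l ∈ 𝔭' from h1)
      simpa using h3
    have hN' : Ideal.absNorm 𝔭' = l := absNorm_eq_of_pow h𝔭' hl hl𝔭' hxx'
    have hne : 𝔭 ≠ 𝔭' := fun he => h.conj_ne hl hur hP hlP hc hN he.symm
    have hf1 : FrobK K 𝔭 τ := ⟨P, hP, rfl, by rw [hN, hτ]; exact hpow⟩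
    have hf2 : FrobK K 𝔭' τ' := ⟨c⁻¹ • P, hP', rfl, by rw [hN', hτ']; exact hpowc⟩
    have hu1 := h.psiK_unique hur hl𝔭 hf1 (hF 𝔭 h𝔭 (ne_bot_of_mem hl hl𝔭))
    have hu2 := h.psiK_unique hur hl𝔭' hf2 (hF 𝔭' h𝔭' (ne_bot_of_mem hl hl𝔭'))
    obtain ⟨htr, hdet⟩ := h.hE.trace_mem h.hH h.hirr hc ⟨σ, hσH⟩
    have hp1 : psi ⟨σ, hσH⟩ = h.psiK (F 𝔭) := by
      rw [← hu1, psiK_apply]
      congr 1
      exact Subtype.ext hτ.symm
    have hp2 : psi ⟨c⁻¹ * σ * c, hσc⟩ = h.psiK (F 𝔭') := by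
      rw [← hu2, psiK_apply]
      congr 1
      exact Subtype.ext hτ'.symm
    rcases hcases' with ⟨hj, Q1, Q2, hQne, hQ1, hQ2, hsp⟩ | ⟨-, hno⟩
    · left
      refine ⟨hj, 𝔭, 𝔭', hne, hN, hN', ?_, ?_, ?_⟩
      · rcases mem_of_span hl h𝔭 hl𝔭 hsp hQ1 hQ2 with e1 | e1 <;>
          rcases mem_of_span hl h𝔭' hl𝔭' hsp hQ1 hQ2 with e2 | e2
        · exact absurd (e1.trans e2.symm) hne
        · rw [e1, e2, hsp]
        · rw [e1, e2, hsp, mul_comm]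
        · exact absurd (e1.trans e2.symm) hne
      · rw [← hp1, ← hp2]; exact htr
      · rw [← hp1, ← hp2]; exact hdet
    · exact absurd hN (hno 𝔭)
  · -- inert case
    rcases hcases' with ⟨-, Q1, Q2, hQne, hQ1, hQ2, hsp⟩ | ⟨hj, hno⟩
    · exfalso
      have hN : Ideal.absNorm 𝔭 = l := by
        rcases mem_of_span hl h𝔭 hl𝔭 hsp hQ1 hQ2 with e1 | e1
        · rw [e1, hQ1]
        · rw [e1, hQ2]
      apply h.not_res hσH
      apply res_eq_one_of_congr h.hres P hP hl hlP (fun τ hτ => h.res_of_inertia hur hP hlP hτ)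
      intro y
      obtain ⟨p, k, -, -, -, -, hy⟩ := exists_char 𝔭 h𝔭 (ne_bot_of_mem hl hl𝔭)
      have h1 := hpow' (algebraMap (𝓞 K) Zb y)
      have h2 : algebraMap (𝓞 K) Zb y ^ l - algebraMap (𝓞 K) Zb y ∈ P := by
        have h3 := hy y
        rw [hN] at h3
        have h4 : algebraMap (𝓞 K) Zb (y ^ l - y) ∈ P := h3
        rwa [map_sub, map_pow] at h4
      have h5 := P.add_mem h1 h2
      rwa [sub_add_sub_cancel] at h5
    · right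
      have hle : Ideal.span {(l : 𝓞 K)} ≤ 𝔭 := by
        rw [Ideal.span_singleton_le_iff_mem]
        exact hl𝔭
      have hN : Ideal.absNorm 𝔭 = l ^ 2 := by
        have hd : Ideal.absNorm 𝔭 ∣ l ^ 2 := by
          rw [← q.absNorm_span_nat l]
          exact Ideal.absNorm_dvd_absNorm_of_le hle
        obtain ⟨k, hk, hk2⟩ := (Nat.dvd_prime_pow hl).mp hd
        interval_cases k
        · exfalso
          rw [pow_zero, Ideal.absNorm_eq_one_iff] at hk2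
          exact h𝔭.ne_top hk2
        · exact absurd (by simpa using hk2) (hno 𝔭)
        · exact hk2
      have hspan : Ideal.span {(l : 𝓞 K)} = 𝔭 := by
        refine H436.eq_of_le_of_absNorm_eq hle ?_ (by rw [q.absNorm_span_nat, hN])
        rw [Ne, Ideal.span_singleton_eq_bot]
        exact_mod_cast hl.ne_zero
      have hsq : σ * σ ∈ H := IsEig.sq_mem h.hH σ
      obtain ⟨τ, hτ⟩ := exists_toGQ h.hres ((h.hmem _).mp hsq)
      have hf1 : FrobK K 𝔭 τ := ⟨P, hP, rfl, by rw [hN, hτ]; exact powAt_sq hpow hl.pos⟩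
      have hu1 := h.psiK_unique hur hl𝔭 hf1 (hF 𝔭 h𝔭 (ne_bot_of_mem hl hl𝔭))
      obtain ⟨htr, hdet⟩ := h.hE.trace_not_mem h.hH h.hirr hσH
      refine ⟨hj, hno, by rw [hspan]; exact h𝔭, htr, ?_⟩
      rw [hdet, hspan, ← hu1, psiK_apply]
      congr 3
      exact Subtype.ext hτ.symm

include h in
/-- odd primes dividing the discriminant are ramified in `ρ`. -/
theorem ramified_of_dvd_discr {p : ℕ} (hp : p.Prime) (hp2 : p ≠ 2)
    (hd : (p : ℤ) ∣ discr K) : ¬ UnramQ ρ p := by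
  intro hur
  obtain ⟨q⟩ := H436.exists_QD h.hK
  have : Fact p.Prime := ⟨hp⟩
  -- a Frobenius element exists
  obtain ⟨P, hP, hpP⟩ : ∃ P : Ideal Zb, P.IsPrime ∧ (p : Zb) ∈ P := by
    obtain ⟨𝔭, h𝔭, hp𝔭⟩ : ∃ 𝔭 : Ideal (𝓞 K), 𝔭.IsPrime ∧ (p : 𝓞 K) ∈ 𝔭 := by
      have hne : Ideal.span {(p : 𝓞 K)} ≠ ⊤ := by
        intro ht
        have h1 := q.absNorm_span_nat p
        rw [ht, Ideal.absNorm_top] at h1
        have h2 := hp.one_lt
        nlinarith [h1, h2]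
      obtain ⟨M, hM, hM2⟩ := Ideal.exists_le_maximal _ hne
      exact ⟨M, hM.isPrime, hM2 (Ideal.mem_span_singleton_self _)⟩
    obtain ⟨P, hP, hPe⟩ := exists_over 𝔭
    refine ⟨P, hP, ?_⟩
    rw [← hPe, Ideal.mem_comap, map_natCast] at hp𝔭
    exact hp𝔭
  obtain ⟨c, hc⟩ := h.exists_not_mem
  have hj : jacobiSym (discr K) p = 0 := by
    rw [← jacobiSym.legendreSym.to_jacobiSym, legendreSym.eq_zero_iff,
      ZMod.intCast_zmod_eq_zero_iff_dvd]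
    exact hd
  rcases q.split_cases hp hp2 with ⟨h1, -⟩ | ⟨-, Q, hQ, hsp⟩ | ⟨h1, -⟩
  · rw [hj] at h1; exact absurd h1 (by norm_num)
  · have hP' : (c⁻¹ • P).IsPrime := inferInstance
    have e1 : P.comap (algebraMap (𝓞 K) Zb) = Q := by
      rcases mem_of_span hp inferInstance (natCast_mem_comap hpP) hsp hQ hQ with h | h <;> exact h
    have e2 : (c⁻¹ • P).comap (algebraMap (𝓞 K) Zb) = Q := by
      rcases mem_of_span hp inferInstance (natCast_mem_comap (natCast_mem_smul hpP c)) hsp hQ hQ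
        with h | h <;> exact h
    exact h.conj_ne hp hur hP hpP hc (by rw [e1, hQ]) (by rw [e1, e2])
  · rw [hj] at h1; exact absurd h1 (by norm_num)

end GD

end

end Vale.Agent.P022
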